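import Vale.Agent.P268.T.H671.LevCases
import Vale.Agent.P268.T.H594.Cone
import Vale.Agent.P268.T.H748.LevelFacts

/-!
# P268, topological half, route V: the level step
-/

set_option linter.unusedSectionVars false

namespace Vale.Agent.P268.T.RV.C671

open Set Filter Topology

/-- **The case lemmas of the level step.** -/
theorem levCases : LevCases := by
  intro E _ _ _ T N a L B hB haN
  obtain ⟨lam₁, hlam₁, hx⟩ := hB.tame.exists_xreg_lam isCompact_univ
  refine ⟨lam₁, fun lam hlam t₀ ht₀ => ?_⟩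
  have hlam0 : 0 ≤ lam := hlam₁.le.trans hlam
  have hT : a + 1 ≤ T := haN.trans hB.le
  have hX : ∀ (X : E) (y : ℂ), (X, y) ≠ 0 → lam * ‖y‖ ≤ (B (X, y)).re →
      XReg (univ : Set Unit) (fun _ => B) () X y := fun X y hne h =>
    (hx lam hlam () (mem_univ _) X y hne h).2
  refine ⟨fun x₀ hx₀ hre => levw_z_zero haN hB hlam0 hX hx₀ hre, fun x₀ z₀ hz₀ hre => ?_⟩
  obtain ⟨X₀, y₀⟩ := x₀
  rcases eq_or_ne y₀ 0 with rfl | hy₀
  · exact levw_y_zero hT hB.tame hlam0 hX ht₀ hz₀ hre
  · by_cases hp : pos T y₀ < 2 * a + 3 ∨ 2 * (T : ℝ) < pos T y₀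
    · exact cone_reg hB haN hlam0 ht₀ hy₀ hz₀ hp hre
    · push Not at hp
      exact levw_protected hT hB.tame hlam0 hX ht₀ (by linarith [hp.1]) (by linarith [hp.2]) hy₀ hre

/-- **The window move.** -/
theorem levTameW : LevTameW K748.Lw := K748.levTameW_of_cases levCases

/-- **The end of the window move satisfies the induction hypothesis.** -/
theorem levIHW : LevIHW K748.Lw := K748.levIHW_of_cases levCases

end Vale.Agent.P268.T.RV.C671
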