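import Vale.Agent.P268.T.H671.PosLoc

/-!
# P268, topological half, route V: cases of the level step

* `RV.levw_protected`: `y` over the protected sector;
* `RV.levw_z_zero`: `z = 0` (old directions, with `z` as a parameter);
* `RV.levw_y_zero`: `y = 0`.
-/

set_option linter.unusedSectionVars false

namespace Vale.Agent.P268.T.RV.C671

open Set Filter Topology

section Gen

variable {P : Type*} [TopologicalSpace P] {E : Type*} [NormedAddCommGroup E] [NormedSpace ℝ E]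
  {Z : Type*} [NormedAddCommGroup Z] [NormedSpace ℝ Z]

/-- Adding a family whose local Lipschitz constant tends to zero. -/
theorem regAt_add_small {s : Set P} {F G : P → E → Z} {p₀ : P} {x₀ : E} (h : RegAt s F p₀ x₀)
    (hG : ∀ ε > 0, ∃ U ∈ 𝓝 x₀, ∀ᶠ p in 𝓝[s] p₀, ∀ x ∈ U, ∀ x' ∈ U,
      ‖G p x - G p x'‖ ≤ ε * ‖x - x'‖) : RegAt s (fun p x => F p x + G p x) p₀ x₀ := by
  obtain ⟨k, hk0, hk1, A, U, hU, hev⟩ := h
  have hA : 0 ≤ ‖A‖ := norm_nonneg _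
  have hε : 0 < (1 - k) / (2 * (‖A‖ + 1)) := div_pos (by linarith) (by linarith)
  obtain ⟨V, hV, hev'⟩ := hG _ hε
  refine ⟨k + (1 - k) / 2, by linarith, by linarith, A, U ∩ V, inter_mem hU hV, ?_⟩
  filter_upwards [hev, hev'] with p e1 e2
  refine MRegOn.add_lip (l := (1 - k) / 2) (fun x hx c hc => e1 x hx.1 c hc.1) fun x hx c hc => ?_
  refine (e2 _ hc.2 _ hx.2).trans ?_
  rw [add_sub_cancel_left]
  calc (1 - k) / (2 * (‖A‖ + 1)) * ‖A c‖
      ≤ (1 - k) / (2 * (‖A‖ + 1)) * ((‖A‖ + 1) * ‖c‖) := by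
        refine mul_le_mul_of_nonneg_left ?_ hε.le
        exact (A.le_opNorm c).trans (mul_le_mul_of_nonneg_right (by linarith) (norm_nonneg _))
    _ = (1 - k) / 2 * ‖c‖ := by
        have : ‖A‖ + 1 ≠ 0 := by positivity
        field_simp

end Gen

variable {E : Type*} [NormedAddCommGroup E] [NormedSpace ℝ E]

/-- The directions of the first variables. -/
theorem old_of_xreg {s : Set ℝ} {B : E × ℂ → ℂ} {g : ℝ → ℂ → ℂ → ℂ} {t₀ : ℝ} {W₀ : E × ℂ} {z₀ : ℂ}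
    (h : XReg (univ : Set Unit) (fun _ => B) () W₀.1 W₀.2) :
    RegAt (s ×ˢ (univ : Set ℂ)) (fun (p : ℝ × ℂ) W => B W + g p.1 W.2 p.2) (t₀, z₀) W₀ := by
  refine RegAt.fst ?_
  have h1 : RegAt ((s ×ˢ (univ : Set ℂ)) ×ˢ (univ : Set ℂ))
      (fun (p : (ℝ × ℂ) × ℂ) X => B (X, p.2)) ((t₀, z₀), W₀.2) W₀.1 := by
    refine RegAt.param (s := (univ : Set Unit) ×ˢ (univ : Set ℂ))
      (φ := fun p : (ℝ × ℂ) × ℂ => ((), p.2))
      (F := fun (p : Unit × ℂ) X => B (X, p.2)) (t := ((t₀, z₀), W₀.2)) ?_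
      (fun p _ => ⟨mem_univ _, mem_univ _⟩) h
    exact (by fun_prop : Continuous fun p : (ℝ × ℂ) × ℂ => ((), p.2)).continuousWithinAt
  refine (h1.add_const fun p => g p.1.1 p.2 p.1.2).congr
    ⟨univ, univ_mem, Eventually.of_forall fun p X _ => ?_⟩
  show g p.1.1 p.2 p.1.2 + B (X, p.2) = B (X, p.2) + g p.1.1 p.2 p.1.2
  rw [add_comm]

/-- The directions of `B`, where the link hardly depends on `y`. -/
theorem old_of_small {s : Set ℝ} {B : E × ℂ → ℂ} {g : ℝ → ℂ → ℂ → ℂ} {t₀ : ℝ} {W₀ : E × ℂ}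
    {z₀ : ℂ} (h : RegAt (univ : Set Unit) (fun _ => B) () W₀)
    (hg : ∀ ε > 0, ∃ U ∈ 𝓝 W₀.2, ∀ᶠ p : ℝ × ℂ in 𝓝[s ×ˢ (univ : Set ℂ)] (t₀, z₀), ∀ y ∈ U,
      ∀ y' ∈ U, ‖g p.1 y p.2 - g p.1 y' p.2‖ ≤ ε * ‖y - y'‖) :
    RegAt (s ×ˢ (univ : Set ℂ)) (fun (p : ℝ × ℂ) W => B W + g p.1 W.2 p.2) (t₀, z₀) W₀ := by
  refine regAt_add_small (h.const _ _) fun ε hε => ?_
  obtain ⟨U, hU, hev⟩ := hg ε hε
  refine ⟨Prod.snd ⁻¹' U, continuous_snd.continuousAt.preimage_mem_nhds hU, ?_⟩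
  filter_upwards [hev] with p hp W hW W' hW'
  refine (hp _ hW _ hW').trans (mul_le_mul_of_nonneg_left ?_ hε.le)
  exact norm_snd_le (W - W')

section Protected

variable {T a : ℕ} {L lam : ℝ} {B : E × ℂ → ℂ}

/-- Old directions over the protected sector. -/
theorem protected_old (hT : a + 1 ≤ T) (hB : Tame (univ : Set Unit) L fun _ => B)
    (hlam : ∀ (X : E) (y : ℂ), (X, y) ≠ 0 → lam * ‖y‖ ≤ (B (X, y)).re →
      XReg (univ : Set Unit) (fun _ => B) () X y)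
    {s : Set ℝ} {t₀ : ℝ} {W₀ : E × ℂ} {z₀ : ℂ} (h1 : 2 * a + 2 + 3 / 4 < pos T W₀.2)
    (h2 : pos T W₀.2 < 2 * T + 1 / 4) (hy : W₀.2 ≠ 0) (hre : ‖z₀‖ ≤ (B W₀).re) :
    RegAt (s ×ˢ (univ : Set ℂ)) (fun (p : ℝ × ℂ) W => levw T a B lam p.1 (W, p.2)) (t₀, z₀) W₀ := by
  have hW : W₀ ≠ 0 := fun e => hy (by rw [e]; rfl)
  have hre0 : 0 ≤ (B W₀).re := (norm_nonneg _).trans hre
  rcases lt_or_ge ‖z₀‖ (lam * ‖W₀.2‖) with h | h
  · refine old_of_small (g := fun t y z => lkw T a lam t y z)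
      (hB.fam.reg () (mem_univ _) W₀ hW hre0) fun ε hε => ?_
    have e1 : ∀ᶠ q : ℂ × ℂ in 𝓝 (z₀, W₀.2), ‖q.1‖ < lam * ‖q.2‖ := by
      have e1 : ContinuousAt (fun q : ℂ × ℂ => lam * ‖q.2‖ - ‖q.1‖) (z₀, W₀.2) := by fun_prop
      have e2 : 0 < lam * ‖W₀.2‖ - ‖z₀‖ := by linarith
      filter_upwards [e1.eventually (lt_mem_nhds e2)] with q hq
      have hq' : 0 < lam * ‖q.2‖ - ‖q.1‖ := hq
      linarith
    rw [nhds_prod_eq, eventually_prod_iff] at e1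
    obtain ⟨pa, ha, pb, hb, hab⟩ := e1
    have hc : ContinuousAt (pos T) W₀.2 :=
      continuousAt_pos hy (arg_lt_pi_of_pos (by linarith))
    refine ⟨{y | pb y ∧ 2 * a + 2 + 3 / 4 < pos T y ∧ pos T y < 2 * T + 1 / 4}, ?_, ?_⟩
    · exact hb.and ((hc.eventually (lt_mem_nhds h1)).and (hc.eventually (gt_mem_nhds h2)))
    · have e2 : ∀ᶠ p : ℝ × ℂ in 𝓝[s ×ˢ (univ : Set ℂ)] (t₀, z₀), pa p.2 := by
        have e3 : Tendsto (fun p : ℝ × ℂ => p.2) (𝓝[s ×ˢ (univ : Set ℂ)] (t₀, z₀)) (𝓝 z₀) :=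
          continuousWithinAt_snd
        exact e3.eventually ha
      filter_upwards [e2] with p hp y hy y' hy'
      have e3 : lkw T a lam p.1 y p.2 = lkw T a lam p.1 y' p.2 := by
        rw [lkw_protected hT hy.2.1.le hy.2.2.le, lkw_protected hT hy'.2.1.le hy'.2.2.le,
          Gam_of_closed (hab hp hy.1).le, Gam_of_closed (hab hp hy'.1).le]
      rw [e3, sub_self, norm_zero]
      positivity
  · exact old_of_xreg (g := fun t y z => lkw T a lam t y z)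
      (hlam W₀.1 W₀.2 hW (h.trans hre))

/-- **The protected sector**, all `z`. -/
theorem levw_protected (hT : a + 1 ≤ T) (hB : Tame (univ : Set Unit) L fun _ => B)
    (hlam0 : 0 ≤ lam) (hlam : ∀ (X : E) (y : ℂ), (X, y) ≠ 0 → lam * ‖y‖ ≤ (B (X, y)).re →
      XReg (univ : Set Unit) (fun _ => B) () X y)
    {s : Set ℝ} {t₀ : ℝ} (ht₀ : t₀ ∈ s) {W₀ : E × ℂ} {z₀ : ℂ}
    (h1 : 2 * a + 2 + 3 / 4 < pos T W₀.2)
    (h2 : pos T W₀.2 < 2 * T + 1 / 4) (hy : W₀.2 ≠ 0)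
    (hre : 0 ≤ (levw T a B lam t₀ (W₀, z₀)).re) :
    RegAt s (fun t => levw T a B lam t) t₀ (W₀, z₀) := by
  have hval : levw T a B lam t₀ (W₀, z₀) = B W₀ + Gam a (lam * ‖W₀.2‖) z₀ := by
    show B W₀ + lkw T a lam t₀ W₀.2 z₀ = _
    rw [lkw_protected hT h1.le h2.le]
  have key : Gam a (lam * ‖W₀.2‖) z₀ = -((‖z₀‖ : ℝ) : ℂ) →
      RegAt s (fun t => levw T a B lam t) t₀ (W₀, z₀) := by
    intro e
    rw [hval, e, Complex.add_re, Complex.neg_re, Complex.ofReal_re] at hre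
    exact RegAt.fst (protected_old hT hB hlam h1 h2 hy (by linarith))
  rcases eq_or_ne z₀ 0 with hz | hz
  · subst hz
    refine key ?_
    rw [Gam_of_closed (by rw [norm_zero]; positivity), norm_zero]
    simp
  rcases Vph_cases a hz with hV | hV
  · exact key (Gam_of_rest hV)
  have hc : ContinuousAt (pos T) W₀.2 := continuousAt_pos hy (arg_lt_pi_of_pos (by linarith))
  have hal : (2 * ((a + 1 : ℕ) : ℝ) + 1) ≠ 0 := by positivity
  have hmem : (t₀, W₀) ∈ s ×ˢ (univ : Set (E × ℂ)) := ⟨ht₀, mem_univ _⟩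
  have hVc : ContinuousAt (Vph a) z₀ := hV.continuousAt hz
  have hpos : ∀ᶠ p : ℝ × (E × ℂ) in 𝓝[s ×ˢ (univ : Set (E × ℂ))] (t₀, W₀),
      2 * a + 2 + 3 / 4 < pos T p.2.2 ∧ pos T p.2.2 < 2 * T + 1 / 4 := by
    have e1 : Tendsto (fun p : ℝ × (E × ℂ) => p.2.2)
        (𝓝[s ×ˢ (univ : Set (E × ℂ))] (t₀, W₀)) (𝓝 W₀.2) :=
      (continuous_snd.comp continuous_snd).continuousWithinAt
    exact e1.eventually ((hc.eventually (lt_mem_nhds h1)).and (hc.eventually (gt_mem_nhds h2)))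
  rcases le_total (Vph a z₀) ((2 * a + 1) * Real.pi) with hle | hle
  · rcases eq_or_lt_of_le hle with heq | hlt
    · refine key (Gam_of_rest ?_)
      rw [heq, eI_odd]
    · -- first turns: the function is `|z| e^{iV}`
      refine RegAt.snd ?_
      have e1 : RegAt (s ×ˢ (univ : Set (E × ℂ))) (fun (p : ℝ × (E × ℂ)) z =>
          ((‖z‖ - (0 : ℝ) : ℝ) : ℂ) * Complex.exp (Complex.I * (Vph a z : ℝ))) (t₀, W₀) z₀ :=
        RegAt.of_turn (r := fun _ : ℝ × (E × ℂ) => (0 : ℝ)) hmem continuousWithinAt_const hal hz hV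
          (norm_pos_iff.mpr hz)
      refine (e1.add_const fun p => B p.2).congr
        ⟨{z | Vph a z < (2 * a + 1) * Real.pi}, hVc.eventually (gt_mem_nhds hlt), ?_⟩
      filter_upwards [hpos] with p hp z hz'
      show B p.2 + ((‖z‖ - (0 : ℝ) : ℝ) : ℂ) * Complex.exp (Complex.I * (Vph a z : ℝ)) =
        B p.2 + lkw T a lam p.1 p.2.2 z
      rw [lkw_protected hT hp.1.le hp.2.le, Gam_of_V_le (le_of_lt hz'), sub_zero]
      rfl
  · rcases eq_or_lt_of_le hle with heq | hlt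
    · refine key (Gam_of_rest ?_)
      rw [← heq, eI_odd]
    rcases lt_or_ge (lam * ‖W₀.2‖) ‖z₀‖ with h | h
    · refine RegAt.snd ?_
      have e1 : RegAt (s ×ˢ (univ : Set (E × ℂ))) (fun (p : ℝ × (E × ℂ)) z =>
          ((‖z‖ - lam * ‖p.2.2‖ : ℝ) : ℂ) * Complex.exp (Complex.I * (Vph a z : ℝ)))
          (t₀, W₀) z₀ := by
        refine RegAt.of_turn (r := fun p : ℝ × (E × ℂ) => lam * ‖p.2.2‖) hmem ?_ hal hz hV h
        exact (by fun_prop : Continuous fun p : ℝ × (E × ℂ) => lam * ‖p.2.2‖).continuousWithinAt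
      have e2 : ∀ᶠ q : (E × ℂ) × ℂ in 𝓝 (W₀, z₀), lam * ‖q.1.2‖ < ‖q.2‖ := by
        have e1 : ContinuousAt (fun q : (E × ℂ) × ℂ => ‖q.2‖ - lam * ‖q.1.2‖) (W₀, z₀) := by
          fun_prop
        have e2 : 0 < ‖z₀‖ - lam * ‖W₀.2‖ := by linarith
        filter_upwards [e1.eventually (lt_mem_nhds e2)] with q hq
        have hq' : 0 < ‖q.2‖ - lam * ‖q.1.2‖ := hq
        linarith
      rw [nhds_prod_eq, eventually_prod_iff] at e2
      obtain ⟨pa, ha, pb, hb, hab⟩ := e2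
      refine (e1.add_const fun p => B p.2 - ((lam * ‖p.2.2‖ : ℝ) : ℂ)).congr
        ⟨{z | pb z ∧ (2 * a + 1) * Real.pi < Vph a z},
          hb.and (hVc.eventually (lt_mem_nhds hlt)), ?_⟩
      have e3 : ∀ᶠ p : ℝ × (E × ℂ) in 𝓝[s ×ˢ (univ : Set (E × ℂ))] (t₀, W₀), pa p.2 := by
        have e1 : Tendsto (fun p : ℝ × (E × ℂ) => p.2)
            (𝓝[s ×ˢ (univ : Set (E × ℂ))] (t₀, W₀)) (𝓝 W₀) := continuousWithinAt_snd
        exact e1.eventually ha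
      filter_upwards [e3, hpos] with p hp hp2 z hz'
      have e4 : lam * ‖p.2.2‖ < ‖z‖ := hab hp hz'.1
      show B p.2 - ((lam * ‖p.2.2‖ : ℝ) : ℂ) + ((‖z‖ - lam * ‖p.2.2‖ : ℝ) : ℂ) *
        Complex.exp (Complex.I * (Vph a z : ℝ)) = B p.2 + lkw T a lam p.1 p.2.2 z
      rw [lkw_protected hT hp2.1.le hp2.2.le, Gam_of_le_V (le_of_lt hz'.2), min_eq_left e4.le]
      unfold eI
      ring
    · refine key ?_
      rw [Gam_of_le_V hle, min_eq_right h]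
      push_cast
      ring

end Protected

/-! ### The cases `z = 0` and `y = 0` -/

theorem Lam_lip_S (a : ℕ) (S S' V : ℝ) : |Lam a S V - Lam a S' V| ≤ |S - S'| := by
  unfold Lam
  refine (abs_min_sub_min_le_max _ _ _ _).trans (max_le ?_ ?_)
  · refine (abs_max_sub_max_le_max _ _ _ _).trans ?_
    rw [sub_self, abs_zero]
    refine max_le (abs_nonneg _) ?_
    refine (abs_min_sub_min_le_max _ _ _ _).trans ?_
    rw [sub_self, abs_zero]
    exact max_le le_rfl (abs_nonneg _)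
  · rw [add_sub_add_right_eq_sub]

theorem Lam_lip_V (a : ℕ) (S V V' : ℝ) : |Lam a S V - Lam a S V'| ≤ |V - V'| := by
  unfold Lam
  refine (abs_min_sub_min_le_max _ _ _ _).trans ?_
  rw [sub_self, abs_zero]
  refine max_le ?_ (abs_nonneg _)
  refine (abs_max_sub_max_le_max _ _ _ _).trans ?_
  rw [sub_sub_sub_cancel_right]
  refine max_le le_rfl ?_
  refine (abs_min_sub_min_le_max _ _ _ _).trans ?_
  rw [sub_self, abs_zero]
  refine max_le (abs_nonneg _) ?_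
  refine (abs_min_sub_min_le_max _ _ _ _).trans ?_
  rw [sub_self, abs_zero]
  exact max_le le_rfl (abs_nonneg _)

theorem angLift_lip {S : ℂ → ℝ} {al : ℝ} {y₀ : ℂ} (hy₀ : y₀ ≠ 0) (h : AngLift S al y₀) :
    ∃ K : ℝ, 0 ≤ K ∧ ∃ U ∈ 𝓝 y₀, ∀ y ∈ U, ∀ y' ∈ U, |S y - S y'| ≤ K * ‖y - y'‖ := by
  obtain ⟨K, U, hU, hev⟩ := AngLift.locLip (s := (univ : Set Unit)) (t₀ := ()) hy₀ h
  refine ⟨max K 0, le_max_right _ _, U, hU, fun y hy y' hy' => ?_⟩
  have h1 := (hev.self_of_nhdsWithin (mem_univ _)) y hy y' hy'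
  rw [Real.norm_eq_abs] at h1
  exact h1.trans (mul_le_mul_of_nonneg_right (le_max_left _ _) (norm_nonneg _))

theorem min_lip {P n ρ r r' : ℝ} (hP : 0 ≤ P) (hn : 0 ≤ n) (hρ : 0 < ρ) (hr : ρ ≤ r)
    (hr' : ρ ≤ r') : |min (P * r) n - min (P * r') n| ≤ n / ρ * |r - r'| := by
  wlog h : r ≤ r' generalizing r r'
  · rw [abs_sub_comm, abs_sub_comm r]
    exact this hr' hr (le_of_not_ge h)
  rcases le_or_gt n (P * r) with h1 | h1
  · have h2 : P * r ≤ P * r' := mul_le_mul_of_nonneg_left h hP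
    rw [min_eq_right h1, min_eq_right (h1.trans h2), sub_self, abs_zero]
    positivity
  · have h2 : P ≤ n / ρ := by
      rw [le_div_iff₀ hρ]
      exact (mul_le_mul_of_nonneg_left hr hP).trans h1.le
    have h3 : |min (P * r) n - min (P * r') n| ≤ |P * r - P * r'| := by
      have := abs_min_sub_min_le_max (P * r) n (P * r') n
      rw [sub_self, abs_zero] at this
      exact this.trans (max_le le_rfl (abs_nonneg _))
    refine h3.trans ?_
    rw [← mul_sub, abs_mul, abs_of_nonneg hP]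
    exact mul_le_mul_of_nonneg_right h2 (abs_nonneg _)

/-- The difference of two values of the link with the same `z`. -/
theorem lkw_sub (T a : ℕ) (lam t : ℝ) (y y' z : ℂ) :
    lkw T a lam t y z - lkw T a lam t y' z =
      ((bw T a lam t y' z - bw T a lam t y z : ℝ) : ℂ) *
        (eI (Vph a z) - eI (Lam a (Sph T y') (Vph a z))) +
      ((bw T a lam t y z : ℝ) : ℂ) *
        (eI (Lam a (Sph T y) (Vph a z)) - eI (Lam a (Sph T y') (Vph a z))) := by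
  unfold lkw
  push_cast
  ring

theorem norm_eI_sub_le_two (x y : ℝ) : ‖eI x - eI y‖ ≤ 2 := by
  refine (norm_sub_le _ _).trans ?_
  rw [norm_eI, norm_eI]
  norm_num

theorem lkw_small_turn {T a k : ℕ} {lam : ℝ} (hT : a + 1 ≤ T) (hlam0 : 0 ≤ lam) (hk : k ≤ a)
    {y₀ : ℂ} (hy₀ : y₀ ≠ 0) (h1 : 2 * (k : ℝ) + 1 < pos T y₀) (h2 : pos T y₀ < 2 * k + 2)
    (t₀ : ℝ) :
    ∀ ε > 0, ∃ U ∈ 𝓝 y₀, ∀ᶠ p : ℝ × ℂ in 𝓝[Icc (0 : ℝ) 1 ×ˢ (univ : Set ℂ)] (t₀, (0 : ℂ)),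
      ∀ y ∈ U, ∀ y' ∈ U,
        ‖lkw T a lam p.1 y p.2 - lkw T a lam p.1 y' p.2‖ ≤ ε * ‖y - y'‖ := by
  intro ε hε
  have hkT : k < T := by omega
  have hka : (k : ℝ) ≤ a := by exact_mod_cast hk
  have haT : (a : ℝ) + 1 ≤ T := by exact_mod_cast hT
  obtain ⟨K, hK, U, hU, hlip⟩ := angLift_lip hy₀ (angLift_Sph hy₀ hkT h1 h2)
  have hc : ContinuousAt (pos T) y₀ := continuousAt_pos hy₀ (arg_lt_pi_of_pos (T := T) (by linarith))
  have hρ : 0 < ‖y₀‖ / 2 := by positivity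
  set ρ := ‖y₀‖ / 2 with hρdef
  have hη : 0 < ε / (2 / ρ + K) := by positivity
  refine ⟨U ∩ {y | pos T y < 2 * k + 2 ∧ ρ < ‖y‖}, inter_mem hU
    ((hc.eventually (gt_mem_nhds h2)).and (continuous_norm.continuousAt.eventually
      (lt_mem_nhds (by rw [hρdef]; linarith)))), ?_⟩
  have e1 : ∀ᶠ p : ℝ × ℂ in 𝓝[Icc (0 : ℝ) 1 ×ˢ (univ : Set ℂ)] (t₀, (0 : ℂ)),
      ‖p.2‖ < ε / (2 / ρ + K) := by
    have e2 : Tendsto (fun p : ℝ × ℂ => ‖p.2‖) (𝓝[Icc (0 : ℝ) 1 ×ˢ (univ : Set ℂ)] (t₀, (0 : ℂ)))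
        (𝓝 ‖(0 : ℂ)‖) := (continuous_norm.comp continuous_snd).continuousWithinAt
    rw [norm_zero] at e2
    exact e2.eventually (gt_mem_nhds hη)
  filter_upwards [e1, self_mem_nhdsWithin] with p hp hps y hy y' hy'
  obtain ⟨⟨ht0, ht1⟩, -⟩ := hps
  have hcy : cy T a y = 0 := cy_eq_zero hT (by linarith [hy.2.1])
  have hcy' : cy T a y' = 0 := cy_eq_zero hT (by linarith [hy'.2.1])
  have hP : 0 ≤ lam * (1 - p.1) := mul_nonneg hlam0 (by linarith)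
  have hb : bw T a lam p.1 y p.2 = min (lam * (1 - p.1) * ‖y‖) ‖p.2‖ := by
    unfold bw; rw [hcy, mul_zero, add_zero, mul_assoc]
  have hb' : bw T a lam p.1 y' p.2 = min (lam * (1 - p.1) * ‖y'‖) ‖p.2‖ := by
    unfold bw; rw [hcy', mul_zero, add_zero, mul_assoc]
  have hb0 : 0 ≤ bw T a lam p.1 y p.2 := by
    rw [hb]; exact le_min (mul_nonneg hP (norm_nonneg _)) (norm_nonneg _)
  have hb1 : bw T a lam p.1 y p.2 ≤ ‖p.2‖ := by rw [hb]; exact min_le_right _ _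
  have hd : |bw T a lam p.1 y' p.2 - bw T a lam p.1 y p.2| ≤ ‖p.2‖ / ρ * ‖y - y'‖ := by
    rw [abs_sub_comm, hb, hb']
    refine (min_lip hP (norm_nonneg _) hρ hy.2.2.le hy'.2.2.le).trans ?_
    exact mul_le_mul_of_nonneg_left (abs_norm_sub_norm_le _ _) (by positivity)
  have hl : ‖eI (Lam a (Sph T y) (Vph a p.2)) - eI (Lam a (Sph T y') (Vph a p.2))‖ ≤
      K * ‖y - y'‖ :=
    (norm_eI_sub_le _ _).trans ((Lam_lip_S _ _ _ _).trans (hlip y hy.1 y' hy'.1))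
  rw [lkw_sub]
  refine (norm_add_le _ _).trans ?_
  rw [norm_mul, norm_mul, Complex.norm_real, Complex.norm_real, Real.norm_eq_abs,
    Real.norm_eq_abs, abs_of_nonneg hb0]
  have g1 : |bw T a lam p.1 y' p.2 - bw T a lam p.1 y p.2| *
      ‖eI (Vph a p.2) - eI (Lam a (Sph T y') (Vph a p.2))‖ ≤ ‖p.2‖ / ρ * ‖y - y'‖ * 2 :=
    mul_le_mul hd (norm_eI_sub_le_two _ _) (norm_nonneg _) (by positivity)
  have g2 : bw T a lam p.1 y p.2 *
      ‖eI (Lam a (Sph T y) (Vph a p.2)) - eI (Lam a (Sph T y') (Vph a p.2))‖ ≤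
      ‖p.2‖ * (K * ‖y - y'‖) := mul_le_mul hb1 hl (norm_nonneg _) (norm_nonneg _)
  have g3 : ‖p.2‖ * (2 / ρ + K) ≤ ε := by
    have := (lt_div_iff₀ (by positivity : 0 < 2 / ρ + K)).mp hp
    exact this.le
  calc _ ≤ ‖p.2‖ / ρ * ‖y - y'‖ * 2 + ‖p.2‖ * (K * ‖y - y'‖) := add_le_add g1 g2
    _ = ‖p.2‖ * (2 / ρ + K) * ‖y - y'‖ := by ring
    _ ≤ ε * ‖y - y'‖ := mul_le_mul_of_nonneg_right g3 (norm_nonneg _)

section Cone

variable {T a N : ℕ} {L lam : ℝ} {B : E × ℂ → ℂ}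

theorem IHw_zero (hB : IHw T N L B) : B 0 = 0 := by
  have h := hB.tame.fam.hom () (mem_univ _) 0 le_rfl (0 : E × ℂ)
  simpa using h

/-- In the rests of `y` over which the cone formula holds, the `X`-directions are regular. -/
theorem xreg_rest (hB : IHw T N L B) {X₀ : E} {y₀ : ℂ} (hy₀ : y₀ ≠ 0)
    (hr : eI (Sph T y₀) = -1) (hcone : ∀ᶠ y in 𝓝 y₀, pos T y ≤ 2 * N + 1 ∨ 2 * T ≤ pos T y)
    (hre : 0 ≤ (B (X₀, y₀)).re) : XReg (univ : Set Unit) (fun _ => B) () X₀ y₀ := by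
  have e1 := hB.cone X₀ y₀ hcone.self_of_nhds
  have hy : 0 < ‖y₀‖ := norm_pos_iff.mpr hy₀
  have h0 : 0 < (B (X₀, 0)).re := by
    rw [e1, hr, mul_neg_one, Complex.add_re, Complex.neg_re, Complex.ofReal_re] at hre
    linarith
  have hX : X₀ ≠ 0 := by
    rintro rfl
    have h := IHw_zero hB
    have h' : B ((0 : E), (0 : ℂ)) = 0 := h
    rw [h'] at h0
    exact lt_irrefl _ h0
  have h1 := hB.tame.zreg () (mem_univ _) X₀ hX h0.le
  have h2 : RegAt ((univ : Set Unit) ×ˢ (univ : Set ℂ)) (fun (_ : Unit × ℂ) X => B (X, 0))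
      ((), y₀) X₀ :=
    RegAt.param (s := (univ : Set Unit) ×ˢ (univ : Set ℂ))
      (φ := fun _ : Unit × ℂ => ((() : Unit), (0 : ℂ))) (t := ((), y₀))
      (F := fun (p : Unit × ℂ) X => B (X, p.2)) continuousWithinAt_const
      (fun p _ => ⟨mem_univ _, mem_univ _⟩) h1
  have h4 := h2.add_const fun p => ((‖p.2‖ : ℝ) : ℂ) * eI (Sph T p.2)
  refine h4.congr ⟨univ, univ_mem, ?_⟩
  have h3 : Tendsto (fun p : Unit × ℂ => p.2) (𝓝[(univ : Set Unit) ×ˢ (univ : Set ℂ)] ((), y₀))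
      (𝓝 y₀) := continuousWithinAt_snd
  filter_upwards [h3.eventually hcone] with p hp X _
  show ((‖p.2‖ : ℝ) : ℂ) * eI (Sph T p.2) + B (X, 0) = B (X, p.2)
  rw [hB.cone X p.2 hp, add_comm]

theorem eI_Sph_rest {k : ℕ} {y₀ : ℂ} (hk : k ≤ T) (h1 : 2 * (k : ℝ) ≤ pos T y₀)
    (h2 : pos T y₀ ≤ 2 * k + 1) : eI (Sph T y₀) = -1 := by
  unfold Sph
  rw [prof_eq_rest hk h1 h2]
  have h := eI_add_int Real.pi (k - 1)
  rw [eI_pi] at h
  rw [← h]
  congr 1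
  push_cast; ring

/-- The cone formula holds near every `y₀` outside the protected sector. -/
theorem eventually_cone (haN : a + 1 ≤ N) (hNT : N ≤ T) {y₀ : ℂ} (hy₀ : y₀ ≠ 0)
    (h : pos T y₀ < 2 * a + 3 ∨ 2 * T < pos T y₀) :
    ∀ᶠ y in 𝓝 y₀, pos T y ≤ 2 * N + 1 ∨ 2 * T ≤ pos T y := by
  have haN' : (a : ℝ) + 1 ≤ N := by exact_mod_cast haN
  have hNT' : (N : ℝ) ≤ T := by exact_mod_cast hNT
  have ha0 : (0 : ℝ) ≤ a := by positivity
  rcases lt_or_eq_of_le (Complex.arg_le_pi y₀) with hpi | hpi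
  · have hc : ContinuousAt (pos T) y₀ := continuousAt_pos hy₀ hpi
    rcases h with h | h
    · filter_upwards [hc.eventually (gt_mem_nhds h)] with y hy
      left; linarith
    · filter_upwards [hc.eventually (lt_mem_nhds h)] with y hy
      right; exact le_of_lt hy
  · filter_upwards [eventually_pos_cut (T := T) hy₀ hpi (ε := 1) one_pos] with y hy
    rcases hy with hy | hy
    · right; linarith
    · left; linarith

/-- **`z = 0`**: the old directions, with `z` as a parameter. -/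
theorem levw_z_zero (haN : a + 1 ≤ N) (hB : IHw T N L B) (hlam0 : 0 ≤ lam)
    (hlam : ∀ (X : E) (y : ℂ), (X, y) ≠ 0 → lam * ‖y‖ ≤ (B (X, y)).re →
      XReg (univ : Set Unit) (fun _ => B) () X y) {t₀ : ℝ} {W₀ : E × ℂ} (hW : W₀ ≠ 0)
    (hre : 0 ≤ (B W₀).re) :
    RegAt (Icc (0 : ℝ) 1 ×ˢ (univ : Set ℂ))
      (fun (p : ℝ × ℂ) W => levw T a B lam p.1 (W, p.2)) (t₀, 0) W₀ := by
  have hT : a + 1 ≤ T := haN.trans hB.le
  rcases eq_or_ne W₀.2 0 with hy | hy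
  · -- `y = 0`
    refine old_of_xreg (g := fun t y z => lkw T a lam t y z) ?_
    refine hlam _ _ hW ?_
    rw [hy, norm_zero, mul_zero]
    have e : ((W₀.1, (0 : ℂ)) : E × ℂ) = W₀ := by rw [← hy]
    rw [e]
    exact hre
  by_cases hp : 2 * (a : ℝ) + 2 + 3 / 4 < pos T W₀.2 ∧ pos T W₀.2 < 2 * T + 1 / 4
  · exact protected_old hT hB.tame hlam hp.1 hp.2 hy (by rw [norm_zero]; exact hre)
  have hp' : pos T W₀.2 < 2 * a + 3 ∨ 2 * T < pos T W₀.2 := by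
    by_contra hcon
    push Not at hcon
    exact hp ⟨by linarith [hcon.1], by linarith [hcon.2]⟩
  have hcone := eventually_cone haN hB.le hy hp'
  rcases rest_or_turn (pos_nonneg T W₀.2) (pos_le T W₀.2) with ⟨k, hk, h1, h2⟩ | ⟨k, hk, h1, h2⟩
  · exact old_of_xreg (g := fun t y z => lkw T a lam t y z)
      (xreg_rest hB hy (eI_Sph_rest hk h1 h2) hcone hre)
  · have hk' : (k : ℝ) + 1 ≤ T := by exact_mod_cast hk
    have hka : k ≤ a := by
      rcases hp' with h | h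
      · by_contra hcon
        have : (a : ℝ) + 1 ≤ k := by exact_mod_cast not_le.mp hcon
        linarith
      · exfalso; linarith
    exact old_of_small (g := fun t y z => lkw T a lam t y z)
      (hB.tame.fam.reg () (mem_univ _) W₀ hW hre) (lkw_small_turn hT hlam0 hka hy h1 h2 t₀)

/-- **`y = 0`**, `z ≠ 0`. -/
theorem levw_y_zero (hT : a + 1 ≤ T) (hB : Tame (univ : Set Unit) L fun _ => B)
    (hlam0 : 0 ≤ lam)
    (hlam : ∀ (X : E) (y : ℂ), (X, y) ≠ 0 → lam * ‖y‖ ≤ (B (X, y)).re →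
      XReg (univ : Set Unit) (fun _ => B) () X y) {t₀ : ℝ} (ht₀ : t₀ ∈ Icc (0 : ℝ) 1)
    {X₀ : E} {z₀ : ℂ} (hz₀ : z₀ ≠ 0)
    (hre : 0 ≤ (levw T a B lam t₀ ((X₀, 0), z₀)).re) :
    RegAt (Icc (0 : ℝ) 1) (fun t => levw T a B lam t) t₀ ((X₀, 0), z₀) := by
  have hz : 0 < ‖z₀‖ := norm_pos_iff.mpr hz₀
  have hb0 : bw T a lam t₀ 0 z₀ = 0 := by
    unfold bw
    rw [norm_zero, mul_zero, mul_zero, min_eq_left (norm_nonneg _)]
  have hval : levw T a B lam t₀ ((X₀, 0), z₀) = B (X₀, 0) + ((‖z₀‖ : ℝ) : ℂ) * eI (Vph a z₀) := by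
    show B (X₀, 0) + lkw T a lam t₀ 0 z₀ = _
    unfold lkw
    rw [hb0]
    simp
  rcases Vph_cases a hz₀ with hV | hV
  · rw [hval, hV, mul_neg_one, Complex.add_re, Complex.neg_re, Complex.ofReal_re] at hre
    have h0 : 0 < (B (X₀, 0)).re := by linarith
    have hX : ((X₀, (0 : ℂ)) : E × ℂ) ≠ 0 := by
      intro e
      have h := hB.fam.hom () (mem_univ _) 0 le_rfl (0 : E × ℂ)
      have h' : B (0 : E × ℂ) = 0 := by simpa using h
      rw [e, h'] at h0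
      exact lt_irrefl _ h0
    refine RegAt.fst ?_
    refine old_of_xreg (g := fun t y z => lkw T a lam t y z) (W₀ := (X₀, (0 : ℂ))) ?_
    refine hlam _ _ hX ?_
    rw [norm_zero, mul_zero]
    exact h0.le
  · have hal : (2 * ((a + 1 : ℕ) : ℝ) + 1) ≠ 0 := by positivity
    obtain ⟨K, hK, U, hU, hlip⟩ := angLift_lip hz₀ hV
    refine RegAt.snd ?_
    have hmem : (t₀, ((X₀, (0 : ℂ)) : E × ℂ)) ∈ Icc (0 : ℝ) 1 ×ˢ (univ : Set (E × ℂ)) :=
      ⟨ht₀, mem_univ _⟩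
    have e1 : RegAt (Icc (0 : ℝ) 1 ×ˢ (univ : Set (E × ℂ))) (fun (p : ℝ × (E × ℂ)) z =>
        ((‖z‖ - (0 : ℝ) : ℝ) : ℂ) * Complex.exp (Complex.I * (Vph a z : ℝ)))
        (t₀, (X₀, (0 : ℂ))) z₀ :=
      RegAt.of_turn (r := fun _ : ℝ × (E × ℂ) => (0 : ℝ)) hmem continuousWithinAt_const hal hz₀ hV
        hz
    -- the size of the window part
    have hsmall : ∀ η > 0, ∀ᶠ p : ℝ × (E × ℂ) in 𝓝[Icc (0 : ℝ) 1 ×ˢ (univ : Set (E × ℂ))]
        (t₀, (X₀, (0 : ℂ))), 0 ≤ lam * (((1 - p.1) + p.1 * cy T a p.2.2) * ‖p.2.2‖) ∧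
          lam * (((1 - p.1) + p.1 * cy T a p.2.2) * ‖p.2.2‖) < η := by
      intro η hη
      have e2 : Tendsto (fun p : ℝ × (E × ℂ) => lam * ‖p.2.2‖)
          (𝓝[Icc (0 : ℝ) 1 ×ˢ (univ : Set (E × ℂ))] (t₀, (X₀, (0 : ℂ)))) (𝓝 (lam * ‖(0 : ℂ)‖)) :=
        (by fun_prop : Continuous fun p : ℝ × (E × ℂ) => lam * ‖p.2.2‖).continuousWithinAt
      rw [norm_zero, mul_zero] at e2
      filter_upwards [e2.eventually (gt_mem_nhds hη), self_mem_nhdsWithin] with p hp hps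
      obtain ⟨h1, h2⟩ := psi_mem hT hps.1 p.2.2
      have hn := norm_nonneg p.2.2
      refine ⟨by positivity, lt_of_le_of_lt ?_ hp⟩
      exact mul_le_mul_of_nonneg_left (mul_le_of_le_one_left hn h2) hlam0
    have e2 := regAt_add_small (G := fun (p : ℝ × (E × ℂ)) (z : ℂ) =>
        ((lam * (((1 - p.1) + p.1 * cy T a p.2.2) * ‖p.2.2‖) : ℝ) : ℂ) *
          (eI (Lam a (Sph T p.2.2) (Vph a z)) - eI (Vph a z))) e1 ?_
    · refine (e2.add_const fun p => B p.2).congr ⟨{z | ‖z₀‖ / 2 < ‖z‖},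
        continuous_norm.continuousAt.eventually (lt_mem_nhds (by linarith)), ?_⟩
      filter_upwards [hsmall (‖z₀‖ / 2) (by positivity)] with p hp z hz'
      have hb : bw T a lam p.1 p.2.2 z =
          lam * (((1 - p.1) + p.1 * cy T a p.2.2) * ‖p.2.2‖) := by
        unfold bw
        exact min_eq_left (hp.2.le.trans (le_of_lt hz'))
      show B p.2 + (((‖z‖ - (0 : ℝ) : ℝ) : ℂ) * Complex.exp (Complex.I * (Vph a z : ℝ)) +
        ((lam * (((1 - p.1) + p.1 * cy T a p.2.2) * ‖p.2.2‖) : ℝ) : ℂ) *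
          (eI (Lam a (Sph T p.2.2) (Vph a z)) - eI (Vph a z))) =
        B p.2 + lkw T a lam p.1 p.2.2 z
      unfold lkw
      rw [hb]
      unfold eI
      push_cast
      ring
    · intro ε hε
      refine ⟨U, hU, ?_⟩
      filter_upwards [hsmall (ε / (2 * (K + 1))) (by positivity)] with p hp z hz1 z' hz2
      set b := lam * (((1 - p.1) + p.1 * cy T a p.2.2) * ‖p.2.2‖) with hb
      have g1 : ‖(eI (Lam a (Sph T p.2.2) (Vph a z)) - eI (Vph a z)) -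
          (eI (Lam a (Sph T p.2.2) (Vph a z')) - eI (Vph a z'))‖ ≤ 2 * (K * ‖z - z'‖) := by
        have g2 := (norm_eI_sub_le (Lam a (Sph T p.2.2) (Vph a z))
          (Lam a (Sph T p.2.2) (Vph a z'))).trans ((Lam_lip_V _ _ _ _).trans
            (hlip z hz1 z' hz2))
        have g3 := (norm_eI_sub_le (Vph a z) (Vph a z')).trans (hlip z hz1 z' hz2)
        have g4 : (eI (Lam a (Sph T p.2.2) (Vph a z)) - eI (Vph a z)) -
            (eI (Lam a (Sph T p.2.2) (Vph a z')) - eI (Vph a z')) =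
            (eI (Lam a (Sph T p.2.2) (Vph a z)) - eI (Lam a (Sph T p.2.2) (Vph a z'))) -
              (eI (Vph a z) - eI (Vph a z')) := by ring
        rw [g4]
        refine (norm_sub_le _ _).trans ?_
        linarith
      show ‖((b : ℝ) : ℂ) * (eI (Lam a (Sph T p.2.2) (Vph a z)) - eI (Vph a z)) -
        ((b : ℝ) : ℂ) * (eI (Lam a (Sph T p.2.2) (Vph a z')) - eI (Vph a z'))‖ ≤ ε * ‖z - z'‖
      rw [← mul_sub, norm_mul, Complex.norm_real, Real.norm_eq_abs, abs_of_nonneg hp.1]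
      calc b * _ ≤ ε / (2 * (K + 1)) * (2 * (K * ‖z - z'‖)) :=
            mul_le_mul hp.2.le g1 (norm_nonneg _) (by positivity)
        _ ≤ ε / (2 * (K + 1)) * (2 * ((K + 1) * ‖z - z'‖)) := by
            have := norm_nonneg (z - z')
            refine mul_le_mul_of_nonneg_left ?_ (by positivity)
            nlinarith
        _ = ε * ‖z - z'‖ := by field_simp

end Cone

end Vale.Agent.P268.T.RV.C671
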