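import Vale.Agent.P268.T.H671.XReg
import Vale.Agent.P268.T.H266.Prof
import Vale.Agent.P268.T.Polar

/-!
# P268, topological half, route V: the last turn of `z` over the protected sector

`part2 a lam B (x, z) = B x + (|z| - b) e^{iV(z)} - b`, `b = min (lam |y|) |z|`.
-/

set_option linter.unusedSectionVars false

namespace Vale.Agent.P268.T

open Set Filter Topology

section C1

variable {V : Type*} [NormedAddCommGroup V] [NormedSpace ℝ V]
  {E : Type*} [NormedAddCommGroup E] [NormedSpace ℝ E]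
  {Z : Type*} [NormedAddCommGroup Z] [NormedSpace ℝ Z]
  {P : Type*} [TopologicalSpace P]

/-- Regularity of continuously differentiable functions with parameters. -/
theorem RegAt.of_contDiffAt [FiniteDimensional ℝ Z] {s : Set P} {p₀ : P} {φ : P → V}
    (hφ : ContinuousWithinAt φ s p₀) {x₀ : E} {G : V × E → Z}
    (hG : ContDiffAt ℝ 1 G (φ p₀, x₀))
    (hsurj : Function.Surjective
      ((fderiv ℝ G (φ p₀, x₀)).comp (ContinuousLinearMap.inr ℝ V E))) :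
    RegAt s (fun p x => G (φ p, x)) p₀ x₀ := by
  have hmap : Tendsto (fun q : P × E => (φ q.1, q.2)) (𝓝[s] p₀ ×ˢ 𝓝 x₀) (𝓝 (φ p₀, x₀)) := by
    rw [nhds_prod_eq]
    exact Tendsto.prodMap hφ.tendsto tendsto_id
  have h1 : ∀ᶠ v in 𝓝 (φ p₀, x₀), HasFDerivAt G (fderiv ℝ G v) v := by
    filter_upwards [hG.eventually (by simp)] with v hv
    exact (hv.differentiableAt one_ne_zero).hasFDerivAt
  have h2 : Tendsto (fderiv ℝ G) (𝓝 (φ p₀, x₀)) (𝓝 (fderiv ℝ G (φ p₀, x₀))) :=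
    hG.continuousAt_fderiv one_ne_zero
  refine RegAt.of_fderiv
    (D := fun p x => (fderiv ℝ G (φ p, x)).comp (ContinuousLinearMap.inr ℝ V E)) ?_ ?_ hsurj
  · filter_upwards [hmap.eventually h1] with q hq
    exact hq.comp q.2 (hasFDerivAt_prodMk_right (φ q.1) q.2)
  · have hc : Continuous fun D : (V × E →L[ℝ] Z) => D.comp (ContinuousLinearMap.inr ℝ V E) :=
      continuous_id.clm_comp continuous_const
    exact (hc.tendsto _).comp (h2.comp hmap)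

end C1

/-- The turning direction of `z`: `(|z| - r) e^{iV(z)}` with a parameter `r < |z|`. -/
theorem RegAt.of_turn {P : Type*} [TopologicalSpace P] {s : Set P} {p₀ : P} (hp₀ : p₀ ∈ s)
    {r : P → ℝ} (hr : ContinuousWithinAt r s p₀) {V : ℂ → ℝ} {al : ℝ} (hal : al ≠ 0) {z₀ : ℂ}
    (hz₀ : z₀ ≠ 0) (hV : AngLift V al z₀) (hr₀ : r p₀ < ‖z₀‖) :
    RegAt s (fun p z => ((‖z‖ - r p : ℝ) : ℂ) * Complex.exp (Complex.I * (V z : ℝ))) p₀ z₀ := by
  set ζ₀ : ℂ := Complex.log z₀ with hζ₀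
  have hexp : Complex.exp ζ₀ = z₀ := Complex.exp_log hz₀
  rw [← hexp]
  refine RegAt.of_exp (subset_closure hp₀) ?_
  -- the function in logarithmic coordinates
  set G : ℝ × ℂ → ℂ := fun v => ((Real.exp v.2.re - v.1 : ℝ) : ℂ) *
    Complex.exp (Complex.I * ((V z₀ + al * (v.2.im - ζ₀.im) : ℝ) : ℂ)) with hG
  have hre : ContDiff ℝ 1 fun v : ℝ × ℂ => v.2.re := Complex.reCLM.contDiff.comp contDiff_snd
  have him : ContDiff ℝ 1 fun v : ℝ × ℂ => v.2.im := Complex.imCLM.contDiff.comp contDiff_snd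
  have hGc : ContDiff ℝ 1 G := by
    refine ContDiff.mul ?_ ?_
    · exact Complex.ofRealCLM.contDiff.comp ((Real.contDiff_exp.comp hre).sub contDiff_fst)
    · refine (Complex.contDiff_exp (𝕜 := ℝ)).comp (contDiff_const.mul ?_)
      exact Complex.ofRealCLM.contDiff.comp
        (contDiff_const.add (contDiff_const.mul (him.sub contDiff_const)))
  have hnorm : Real.exp ζ₀.re = ‖z₀‖ := by rw [← hexp, Complex.norm_exp]
  have h1 : RegAt s (fun p ζ => G (r p, ζ)) p₀ ζ₀ := by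
    refine RegAt.of_contDiffAt hr hGc.contDiffAt ?_
    set E₀ : ℂ := Complex.exp (Complex.I * ((V z₀ : ℝ) : ℂ)) with hE₀
    have hE₀ne : E₀ ≠ 0 := Complex.exp_ne_zero _
    -- the two partial derivatives
    have hd : ∀ h : ℂ, ((fderiv ℝ G (r p₀, ζ₀)).comp (ContinuousLinearMap.inr ℝ ℝ ℂ)) h =
        ((‖z₀‖ * h.re : ℝ) + ((‖z₀‖ - r p₀) * al * h.im : ℝ) * Complex.I) * E₀ := by
      intro h
      have hline : HasDerivAt (fun τ : ℝ => G (r p₀, ζ₀ + τ • h))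
          (((fderiv ℝ G (r p₀, ζ₀)).comp (ContinuousLinearMap.inr ℝ ℝ ℂ)) h) 0 := by
        have e1 : HasFDerivAt G (fderiv ℝ G (r p₀, ζ₀)) (r p₀, ζ₀ + (0 : ℝ) • h) := by
          rw [zero_smul, add_zero]
          exact (hGc.differentiable one_ne_zero _).hasFDerivAt
        have e2 : HasDerivAt (fun τ : ℝ => ((r p₀, ζ₀ + τ • h) : ℝ × ℂ)) (0, h) 0 := by
          have e3 : HasDerivAt (fun τ : ℝ => ζ₀ + τ • h) h 0 := by
            simpa using ((hasDerivAt_id (0 : ℝ)).smul_const h).const_add ζ₀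
          exact (hasDerivAt_const (0 : ℝ) (r p₀)).prodMk e3
        exact e1.comp_hasDerivAt (0 : ℝ) e2
      have hline' : HasDerivAt (fun τ : ℝ => G (r p₀, ζ₀ + τ • h))
          (((‖z₀‖ * h.re : ℝ) + ((‖z₀‖ - r p₀) * al * h.im : ℝ) * Complex.I) * E₀) 0 := by
        have e0 : (fun τ : ℝ => G (r p₀, ζ₀ + τ • h)) = fun τ : ℝ =>
            ((Real.exp (ζ₀.re + τ * h.re) - r p₀ : ℝ) : ℂ) *
              Complex.exp (Complex.I * ((V z₀ + al * (τ * h.im) : ℝ) : ℂ)) := by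
          funext τ
          simp only [hG]
          congr 3
          · simp
          · congr 2
            simp
        rw [e0]
        have e1 : HasDerivAt (fun τ : ℝ => Real.exp (ζ₀.re + τ * h.re) - r p₀)
            (‖z₀‖ * h.re) 0 := by
          have e2 : HasDerivAt (fun τ : ℝ => ζ₀.re + τ * h.re) h.re 0 := by
            simpa using ((hasDerivAt_id (0 : ℝ)).mul_const h.re).const_add ζ₀.re
          have e3 := (e2.exp).sub_const (r p₀)
          simpa [hnorm] using e3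
        have e2 : HasDerivAt (fun τ : ℝ => V z₀ + al * (τ * h.im)) (al * h.im) 0 := by
          simpa using (((hasDerivAt_id (0 : ℝ)).mul_const h.im).const_mul al).const_add (V z₀)
        have e3 := (e2.ofReal_comp.const_mul Complex.I).cexp
        have e4 := e1.ofReal_comp.mul e3
        refine e4.congr_deriv ?_
        simp only [zero_mul, add_zero, mul_zero, hnorm]
        rw [← hE₀]
        push_cast
        ring
      exact hline.unique hline'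
    intro c
    have hz1 : 0 < ‖z₀‖ := norm_pos_iff.mpr hz₀
    have hz2 : 0 < ‖z₀‖ - r p₀ := by linarith
    refine ⟨⟨(c / E₀).re / ‖z₀‖, (c / E₀).im / ((‖z₀‖ - r p₀) * al)⟩, ?_⟩
    rw [hd]
    have e1 : ‖z₀‖ * ((c / E₀).re / ‖z₀‖) = (c / E₀).re := by field_simp
    have e2 : (‖z₀‖ - r p₀) * al * ((c / E₀).im / ((‖z₀‖ - r p₀) * al)) = (c / E₀).im := by
      have : (‖z₀‖ - r p₀) * al ≠ 0 := mul_ne_zero hz2.ne' hal
      field_simp
    rw [e1, e2, Complex.re_add_im]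
    exact div_mul_cancel₀ c hE₀ne
  refine h1.congr ?_
  have hlift : ∀ᶠ ζ in 𝓝 ζ₀, V (Complex.exp ζ) = V z₀ + al * (ζ.im - ζ₀.im) := by
    have e1 : ∀ᶠ ζ in 𝓝 ζ₀, V (Complex.exp ζ) = V z₀ + al * Complex.arg (Complex.exp ζ / z₀) := by
      have e2 : Tendsto Complex.exp (𝓝 ζ₀) (𝓝 z₀) := by
        have := Complex.continuous_exp.tendsto ζ₀
        rwa [hexp] at this
      exact e2.eventually hV
    have e3 : ∀ᶠ ζ in 𝓝 ζ₀, |ζ.im - ζ₀.im| < Real.pi := by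
      have e4 : ContinuousAt (fun ζ : ℂ => |ζ.im - ζ₀.im|) ζ₀ := by fun_prop
      refine e4.eventually (gt_mem_nhds ?_)
      simp [Real.pi_pos]
    filter_upwards [e1, e3] with ζ h2 h3
    rw [h2]
    congr 2
    obtain ⟨h4, h5⟩ := abs_lt.mp h3
    have e5 : Complex.exp ζ / z₀ = Complex.exp (ζ - ζ₀) := by rw [Complex.exp_sub, hexp]
    rw [e5, Complex.arg_exp]
    have e6 : (ζ - ζ₀).im = ζ.im - ζ₀.im := by simp
    rw [e6]
    exact toIocMod_eq_self Real.two_pi_pos |>.mpr ⟨by linarith, by linarith⟩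
  obtain ⟨U, hU, hUV⟩ := Filter.eventually_iff_exists_mem.mp hlift
  refine ⟨U, hU, Eventually.of_forall fun p ζ hζ => ?_⟩
  simp only [hG]
  rw [hUV ζ hζ, Complex.norm_exp]

section Part2

variable {E : Type*} [NormedAddCommGroup E] [NormedSpace ℝ E] {Θ : Type*} [TopologicalSpace Θ]

/-- The level function over the protected sector, in the last turn of `z`. -/
noncomputable def part2 (lam : ℝ) (V : ℂ → ℝ) (B : E × ℂ → ℂ) (p : (E × ℂ) × ℂ) : ℂ :=
  B p.1 + (((‖p.2‖ - min (lam * ‖p.1.2‖) ‖p.2‖ : ℝ) : ℂ) * Complex.exp (Complex.I * (V p.2 : ℝ)) -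
    ((min (lam * ‖p.1.2‖) ‖p.2‖ : ℝ) : ℂ))

theorem part2_of_le {lam : ℝ} {V : ℂ → ℝ} {B : E × ℂ → ℂ} {p : (E × ℂ) × ℂ}
    (h : ‖p.2‖ ≤ lam * ‖p.1.2‖) : part2 lam V B p = B p.1 - (‖p.2‖ : ℝ) := by
  rw [part2, min_eq_right h, sub_self, Complex.ofReal_zero, zero_mul, zero_sub, sub_eq_add_neg]

theorem part2_of_ge {lam : ℝ} {V : ℂ → ℝ} {B : E × ℂ → ℂ} {p : (E × ℂ) × ℂ}
    (h : lam * ‖p.1.2‖ ≤ ‖p.2‖) : part2 lam V B p = (B p.1 - ((lam * ‖p.1.2‖ : ℝ) : ℂ)) +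
      ((‖p.2‖ - lam * ‖p.1.2‖ : ℝ) : ℂ) * Complex.exp (Complex.I * (V p.2 : ℝ)) := by
  rw [part2, min_eq_left h]; ring

theorem part2_of_rest {lam : ℝ} {V : ℂ → ℝ} {B : E × ℂ → ℂ} {p : (E × ℂ) × ℂ}
    (h : Complex.exp (Complex.I * (V p.2 : ℝ)) = -1) : part2 lam V B p = B p.1 - (‖p.2‖ : ℝ) := by
  rw [part2, h]; push_cast; ring

variable {s : Set Θ} {L : ℝ} {B : Θ → E × ℂ → ℂ}

/-- The directions of the old variables, where the gate is closed. -/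
theorem part2_old_closed {lam : ℝ} {V : ℂ → ℝ} {t₀ : Θ} {W₀ : E × ℂ} {z₀ : ℂ}
    (hB : RegAt s B t₀ W₀) (h : ‖z₀‖ < lam * ‖W₀.2‖) :
    RegAt (s ×ˢ (univ : Set ℂ)) (fun (p : Θ × ℂ) W => part2 lam V (B p.1) (W, p.2)) (t₀, z₀) W₀ := by
  have h1 : RegAt (s ×ˢ (univ : Set ℂ)) (fun (p : Θ × ℂ) W => B p.1 W) (t₀, z₀) W₀ :=
    RegAt.param (φ := Prod.fst) (F := B) (t := (t₀, z₀)) continuousWithinAt_fst
      (fun p hp => hp.1) hB
  have h2 : ∀ᶠ q : ℂ × (E × ℂ) in 𝓝 (z₀, W₀), ‖q.1‖ < lam * ‖q.2.2‖ := by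
    have e1 : ContinuousAt (fun q : ℂ × (E × ℂ) => lam * ‖q.2.2‖ - ‖q.1‖) (z₀, W₀) := by fun_prop
    have e2 : 0 < lam * ‖W₀.2‖ - ‖z₀‖ := by linarith
    filter_upwards [e1.eventually (lt_mem_nhds e2)] with q hq
    have hq' : 0 < lam * ‖q.2.2‖ - ‖q.1‖ := hq
    linarith
  rw [nhds_prod_eq, eventually_prod_iff] at h2
  obtain ⟨pa, ha, pb, hb, hab⟩ := h2
  refine (h1.add_const fun p => -((‖p.2‖ : ℝ) : ℂ)).congr ⟨{W | pb W}, hb, ?_⟩
  have h3 : ∀ᶠ p : Θ × ℂ in 𝓝[s ×ˢ (univ : Set ℂ)] (t₀, z₀), pa p.2 := by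
    have e1 : Tendsto (fun p : Θ × ℂ => p.2) (𝓝[s ×ˢ (univ : Set ℂ)] (t₀, z₀)) (𝓝 z₀) :=
      continuousWithinAt_snd
    exact e1.eventually ha
  filter_upwards [h3] with p hp W hW
  have h4 := hab hp (show pb W from hW)
  show -((‖p.2‖ : ℝ) : ℂ) + B p.1 W = part2 lam V (B p.1) (W, p.2)
  rw [part2_of_le (p := (W, p.2)) h4.le]
  ring

/-- The directions of the first variables. -/
theorem part2_old_first {lam : ℝ} {V : ℂ → ℝ} {t₀ : Θ} {W₀ : E × ℂ} {z₀ : ℂ}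
    (hB : XReg s B t₀ W₀.1 W₀.2) :
    RegAt (s ×ˢ (univ : Set ℂ)) (fun (p : Θ × ℂ) W => part2 lam V (B p.1) (W, p.2)) (t₀, z₀) W₀ := by
  refine RegAt.fst ?_
  have h1 : RegAt ((s ×ˢ (univ : Set ℂ)) ×ˢ (univ : Set ℂ))
      (fun (p : (Θ × ℂ) × ℂ) X => B p.1.1 (X, p.2)) ((t₀, z₀), W₀.2) W₀.1 := by
    refine RegAt.param (s := s ×ˢ (univ : Set ℂ)) (φ := fun p : (Θ × ℂ) × ℂ => (p.1.1, p.2))
      (F := fun (p : Θ × ℂ) X => B p.1 (X, p.2)) (t := ((t₀, z₀), W₀.2)) ?_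
      (fun p hp => ⟨hp.1.1, mem_univ _⟩) hB
    exact (by fun_prop : Continuous fun p : (Θ × ℂ) × ℂ => (p.1.1, p.2)).continuousWithinAt
  refine (h1.add_const fun p => ((‖p.1.2‖ - min (lam * ‖p.2‖) ‖p.1.2‖ : ℝ) : ℂ) *
    Complex.exp (Complex.I * (V p.1.2 : ℝ)) - ((min (lam * ‖p.2‖) ‖p.1.2‖ : ℝ) : ℂ)).congr
    ⟨univ, univ_mem, Eventually.of_forall fun p X _ => ?_⟩
  rw [part2, add_comm]

/-- **Part 2 over the protected sector**: at the points where `V` turns, or `e^{iV} = -1`, or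
`z = 0`, the function `part2` is regular, for all large `lam`; where `z = 0`, or `e^{iV} = -1`, it
is regular in the directions of the old variables. -/
theorem Tame.regAt_part2 [FiniteDimensional ℝ E] (hs : IsCompact s) (hB : Tame s L B) :
    ∃ lam₁ > 0, ∀ lam : ℝ, lam₁ ≤ lam → ∀ V : ℂ → ℝ, ∀ t₀ ∈ s, ∀ (W₀ : E × ℂ) (z₀ : ℂ),
      (W₀, z₀) ≠ 0 → 0 ≤ (part2 lam V (B t₀) (W₀, z₀)).re →
      ((z₀ = 0 ∨ Complex.exp (Complex.I * (V z₀ : ℝ)) = -1) →
        RegAt (s ×ˢ (univ : Set ℂ)) (fun (p : Θ × ℂ) W => part2 lam V (B p.1) (W, p.2))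
          (t₀, z₀) W₀) ∧
      ((∃ al : ℝ, al ≠ 0 ∧ AngLift V al z₀) →
        RegAt s (fun t => part2 lam V (B t)) t₀ (W₀, z₀)) := by
  obtain ⟨lam₁, hlam₁, hX⟩ := hB.exists_xreg_lam hs
  refine ⟨lam₁, hlam₁, fun lam hlam V t₀ ht₀ W₀ z₀ hne hre => ?_⟩
  have hlam0 : 0 < lam := lt_of_lt_of_le hlam₁ hlam
  -- if the value is `B - |z|` then the old directions work
  have key : part2 lam V (B t₀) (W₀, z₀) = B t₀ W₀ - (‖z₀‖ : ℝ) →
      RegAt (s ×ˢ (univ : Set ℂ)) (fun (p : Θ × ℂ) W => part2 lam V (B p.1) (W, p.2))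
          (t₀, z₀) W₀ := by
    intro hval
    rw [hval, Complex.sub_re, Complex.ofReal_re] at hre
    have h0 : 0 ≤ (B t₀ W₀).re := le_trans (norm_nonneg z₀) (by linarith)
    have hW : W₀ ≠ 0 := by
      rintro rfl
      rw [(hB.fam.hom t₀ ht₀).zero, Complex.zero_re] at hre
      have : z₀ = 0 := norm_le_zero_iff.mp (by linarith)
      exact hne (by rw [this]; rfl)
    rcases lt_or_ge ‖z₀‖ (lam * ‖W₀.2‖) with h | h
    · exact part2_old_closed (hB.fam.reg t₀ ht₀ W₀ hW h0) h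
    · exact part2_old_first (hX lam hlam t₀ ht₀ W₀.1 W₀.2 hW (by
        show lam * ‖W₀.2‖ ≤ (B t₀ W₀).re
        linarith)).2
  refine ⟨?_, ?_⟩
  · rintro (rfl | h)
    · refine key ?_
      rw [part2_of_le (p := (W₀, (0 : ℂ)))]
      show ‖(0 : ℂ)‖ ≤ lam * ‖W₀.2‖
      rw [norm_zero]; positivity
    · exact key (part2_of_rest (p := (W₀, z₀)) h)
  · rintro ⟨al, hal, hV⟩
    rcases lt_or_ge (lam * ‖W₀.2‖) ‖z₀‖ with h | h
    · have hz₀ : z₀ ≠ 0 := by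
        rintro rfl
        rw [norm_zero] at h
        have : 0 ≤ lam * ‖W₀.2‖ := by positivity
        linarith
      refine RegAt.snd ?_
      have h1 : RegAt (s ×ˢ (univ : Set (E × ℂ))) (fun (p : Θ × (E × ℂ)) z =>
          ((‖z‖ - lam * ‖p.2.2‖ : ℝ) : ℂ) * Complex.exp (Complex.I * (V z : ℝ))) (t₀, W₀) z₀ := by
        have hmem : (t₀, W₀) ∈ s ×ˢ (univ : Set (E × ℂ)) := ⟨ht₀, mem_univ _⟩
        refine RegAt.of_turn (r := fun p : Θ × (E × ℂ) => lam * ‖p.2.2‖) hmem ?_ hal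
          hz₀ hV h
        exact (by fun_prop : Continuous fun p : Θ × (E × ℂ) =>
          lam * ‖p.2.2‖).continuousWithinAt
      have h2 : ∀ᶠ q : (E × ℂ) × ℂ in 𝓝 (W₀, z₀), lam * ‖q.1.2‖ < ‖q.2‖ := by
        have e1 : ContinuousAt (fun q : (E × ℂ) × ℂ => ‖q.2‖ - lam * ‖q.1.2‖) (W₀, z₀) := by
          fun_prop
        have e2 : 0 < ‖z₀‖ - lam * ‖W₀.2‖ := by linarith
        filter_upwards [e1.eventually (lt_mem_nhds e2)] with q hq
        have hq' : 0 < ‖q.2‖ - lam * ‖q.1.2‖ := hq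
        linarith
      rw [nhds_prod_eq, eventually_prod_iff] at h2
      obtain ⟨pa, ha, pb, hb, hab⟩ := h2
      refine (h1.add_const fun p => B p.1 p.2 - ((lam * ‖p.2.2‖ : ℝ) : ℂ)).congr
        ⟨{z | pb z}, hb, ?_⟩
      have h3 : ∀ᶠ p : Θ × (E × ℂ) in 𝓝[s ×ˢ (univ : Set (E × ℂ))] (t₀, W₀), pa p.2 := by
        have e1 : Tendsto (fun p : Θ × (E × ℂ) => p.2)
            (𝓝[s ×ˢ (univ : Set (E × ℂ))] (t₀, W₀)) (𝓝 W₀) := continuousWithinAt_snd
        exact e1.eventually ha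
      filter_upwards [h3] with p hp z hz
      have h4 : lam * ‖p.2.2‖ < ‖z‖ := hab hp (show pb z from hz)
      exact (part2_of_ge (B := B p.1) (p := (p.2, z)) h4.le).symm
    · have h1 := key (part2_of_le (p := (W₀, z₀)) h)
      exact RegAt.fst h1

end Part2

end Vale.Agent.P268.T
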