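import Vale.Agent.P268.T.H594.KinkProf
import Vale.Agent.P268.T.H128.PolarLip
import Vale.Agent.P268.T.H266.Lev
import Vale.Agent.P268.T.H671.Part2

/-!
# P268, topological half, route V: local facts about positions, windows and gates
-/

set_option linter.unusedSectionVars false

namespace Vale.Agent.P268.T.RV.C671

open Set Filter Topology

/-! ### positions -/

theorem abs_arg_eq {y : ℂ} (hy : y ≠ 0) : |Complex.arg y| = Real.arccos (y.re / ‖y‖) := by
  rcases le_or_gt 0 y.im with h | h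
  · rw [abs_of_nonneg (Complex.arg_nonneg_iff.mpr h), Complex.arg_of_im_nonneg_of_ne_zero h hy]
  · rw [abs_of_neg (Complex.arg_neg_iff.mpr h), Complex.arg_of_im_neg h, neg_neg]

theorem continuousAt_abs_arg {y₀ : ℂ} (hy₀ : y₀ ≠ 0) :
    ContinuousAt (fun y : ℂ => |Complex.arg y|) y₀ := by
  have h1 : ContinuousAt (fun y : ℂ => Real.arccos (y.re / ‖y‖)) y₀ := by
    refine Real.continuous_arccos.continuousAt.comp ?_
    exact Complex.continuous_re.continuousAt.div continuous_norm.continuousAt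
      (norm_ne_zero_iff.mpr hy₀)
  refine h1.congr ?_
  filter_upwards [eventually_ne_nhds hy₀] with y hy
  exact (abs_arg_eq hy).symm

theorem continuousAt_pos {T : ℕ} {y₀ : ℂ} (hy₀ : y₀ ≠ 0) (h : Complex.arg y₀ < Real.pi) :
    ContinuousAt (pos T) y₀ := by
  have h1 : ContinuousAt Complex.arg y₀ := by
    refine Complex.continuousAt_arg ?_
    rw [Complex.mem_slitPlane_iff_arg]
    exact ⟨h.ne, hy₀⟩
  unfold pos xc
  exact (ContinuousAt.mul_const (h1.add continuousAt_const) _).div_const _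

theorem pos_nonneg (T : ℕ) (y : ℂ) : 0 ≤ pos T y := by
  unfold pos
  rw [← xc_neg_pi T]
  exact xc_mono (Complex.neg_pi_lt_arg y).le

theorem pos_le (T : ℕ) (y : ℂ) : pos T y ≤ 2 * T + 1 := by
  unfold pos
  rw [← xc_pi T]
  exact xc_mono (Complex.arg_le_pi y)

theorem arg_lt_pi_of_pos {T : ℕ} {y : ℂ} (h : pos T y < 2 * T + 1) : Complex.arg y < Real.pi := by
  refine lt_of_le_of_ne (Complex.arg_le_pi y) fun e => ?_
  rw [pos, e, xc_pi] at h
  exact lt_irrefl _ h

/-- Positions near a point of the negative axis. -/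
theorem eventually_pos_cut {T : ℕ} {y₀ : ℂ} (hy₀ : y₀ ≠ 0) (h : Complex.arg y₀ = Real.pi)
    {ε : ℝ} (hε : 0 < ε) : ∀ᶠ y in 𝓝 y₀, 2 * T + 1 - ε < pos T y ∨ pos T y < ε := by
  have hpi := Real.pi_pos
  set δ : ℝ := ε * (2 * Real.pi) / (2 * T + 1) with hδ
  have hT : (0 : ℝ) < 2 * T + 1 := by positivity
  have hδ0 : 0 < δ := by positivity
  have h1 : ∀ᶠ y in 𝓝 y₀, Real.pi - δ < |Complex.arg y| := by
    refine (continuousAt_abs_arg hy₀).eventually (lt_mem_nhds ?_)
    show Real.pi - δ < |Complex.arg y₀|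
    rw [h, abs_of_pos hpi]; linarith
  filter_upwards [h1] with y hy
  have e : ε = δ * (2 * T + 1) / (2 * Real.pi) := by
    rw [hδ]; field_simp
  rcases lt_abs.mp hy with h2 | h2
  · left
    have h3 : pos T y = 2 * T + 1 - (Real.pi - Complex.arg y) * (2 * T + 1) / (2 * Real.pi) := by
      unfold pos xc; field_simp; ring
    rw [h3, e]
    have h4 : (Real.pi - Complex.arg y) * (2 * T + 1) / (2 * Real.pi) <
        δ * (2 * T + 1) / (2 * Real.pi) := by
      refine div_lt_div_of_pos_right ?_ (by positivity)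
      exact mul_lt_mul_of_pos_right (by linarith) hT
    linarith
  · right
    rw [e]
    unfold pos xc
    refine div_lt_div_of_pos_right ?_ (by positivity)
    exact mul_lt_mul_of_pos_right (by linarith) hT

/-- Positions near a point: a closed condition which holds with room. -/
theorem eventually_pos_lt {T : ℕ} {y₀ : ℂ} (hy₀ : y₀ ≠ 0) {c : ℝ} (h : pos T y₀ < c)
    (hc : c ≤ 2 * T + 1) : ∀ᶠ y in 𝓝 y₀, pos T y < c :=
  (continuousAt_pos hy₀ (arg_lt_pi_of_pos (h.trans_le hc))).eventually (gt_mem_nhds h)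

/-- The window function near a point where it is `0`. -/
theorem cy_eq_zero {T a : ℕ} (hT : a + 1 ≤ T) {y : ℂ} (h : pos T y ≤ 2 * a + 2 + 1 / 4) :
    cy T a y = 0 := by
  have hT' : (a : ℝ) + 1 ≤ T := by exact_mod_cast hT
  unfold cy
  rw [clamp01_of_le_zero (by linarith), clamp01_of_le_zero (by linarith), sub_zero]

theorem cy_eq_one {T a : ℕ} {y : ℂ} (h1 : 2 * a + 2 + 3 / 4 ≤ pos T y)
    (h2 : pos T y ≤ 2 * T + 1 / 4) : cy T a y = 1 := by
  unfold cy
  rw [clamp01_eq_one (by linarith), clamp01_of_le_zero (by linarith), sub_zero]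

theorem cy_nonneg {T a : ℕ} (hT : a + 1 ≤ T) (y : ℂ) : 0 ≤ cy T a y := by
  have hT' : (a : ℝ) + 1 ≤ T := by exact_mod_cast hT
  unfold cy
  have := clamp01_mono (s := 2 * (pos T y - 2 * T - 1 / 4))
    (t := 2 * (pos T y - (2 * a + 2) - 1 / 4)) (by linarith)
  linarith

theorem cy_le_one (T a : ℕ) (y : ℂ) : cy T a y ≤ 1 := by
  unfold cy
  have h1 := clamp01_le_one (2 * (pos T y - (2 * a + 2) - 1 / 4))
  have h2 := clamp01_nonneg (2 * (pos T y - 2 * T - 1 / 4))
  linarith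

theorem psi_mem {T a : ℕ} (hT : a + 1 ≤ T) {t : ℝ} (ht : t ∈ Icc (0 : ℝ) 1) (y : ℂ) :
    0 ≤ (1 - t) + t * cy T a y ∧ (1 - t) + t * cy T a y ≤ 1 := by
  have h1 := cy_nonneg hT y
  have h2 := cy_le_one T a y
  constructor
  · nlinarith [ht.1, ht.2]
  · nlinarith [ht.1, ht.2]

/-! ### phases -/

theorem pi_le_prof (T : ℕ) (θ : ℝ) : Real.pi ≤ prof T θ := by
  unfold prof
  have h : 0 ≤ ∑ k ∈ Finset.range T, clamp01 (xc T θ - (2 * k + 1)) :=
    Finset.sum_nonneg fun k _ => clamp01_nonneg _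
  have := Real.pi_pos
  nlinarith

theorem prof_le (T : ℕ) (θ : ℝ) : prof T θ ≤ (2 * T + 1) * Real.pi := by
  unfold prof
  have h : ∑ k ∈ Finset.range T, clamp01 (xc T θ - (2 * k + 1)) ≤ T := by
    calc ∑ k ∈ Finset.range T, clamp01 (xc T θ - (2 * k + 1)) ≤ ∑ _k ∈ Finset.range T, (1 : ℝ) :=
          Finset.sum_le_sum fun k _ => clamp01_le_one _
      _ = T := by simp
  have := Real.pi_pos
  nlinarith

theorem Vph_le (a : ℕ) (z : ℂ) : Vph a z ≤ (2 * a + 3) * Real.pi := by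
  have := prof_le (a + 1) (Complex.arg z)
  unfold Vph
  push_cast at this
  linarith

theorem pi_le_Vph (a : ℕ) (z : ℂ) : Real.pi ≤ Vph a z := pi_le_prof _ _

theorem le_Sph {T a : ℕ} (hT : a + 1 ≤ T) {y : ℂ} (h : 2 * a + 2 ≤ pos T y) :
    (2 * a + 1) * Real.pi ≤ Sph T y := by
  unfold Sph prof
  have hpi := Real.pi_pos
  have h1 : ((a + 1 : ℕ) : ℝ) ≤ ∑ k ∈ Finset.range T, clamp01 (xc T (Complex.arg y) - (2 * k + 1)) := by
    calc ((a + 1 : ℕ) : ℝ) = ∑ _k ∈ Finset.range (a + 1), (1 : ℝ) := by simp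
      _ = ∑ k ∈ Finset.range (a + 1), clamp01 (xc T (Complex.arg y) - (2 * k + 1)) := by
          refine Finset.sum_congr rfl fun k hk => (clamp01_eq_one ?_).symm
          have hk' : (k : ℝ) + 1 ≤ a + 1 := by exact_mod_cast Finset.mem_range.mp hk
          have h' : 2 * (a : ℝ) + 2 ≤ xc T (Complex.arg y) := h
          linarith
      _ ≤ ∑ k ∈ Finset.range T, clamp01 (xc T (Complex.arg y) - (2 * k + 1)) :=
          Finset.sum_le_sum_of_subset_of_nonneg (Finset.range_subset_range.mpr hT)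
            fun k _ _ => clamp01_nonneg _
  push_cast at h1
  nlinarith

theorem Lam_protected {a : ℕ} {S V : ℝ} (hS : (2 * a + 1) * Real.pi ≤ S)
    (hV : V ≤ (2 * a + 3) * Real.pi) : Lam a S V = min V ((2 * a + 1) * Real.pi) := by
  have hpi := Real.pi_pos
  have ha : (0 : ℝ) ≤ a := by positivity
  have h1 : min S (min V ((2 * a + 1) * Real.pi)) = min V ((2 * a + 1) * Real.pi) :=
    min_eq_right ((min_le_right _ _).trans hS)
  have h2 : max (V - 2 * Real.pi) (min V ((2 * a + 1) * Real.pi)) =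
      min V ((2 * a + 1) * Real.pi) :=
    max_eq_right (le_min (by linarith) (by linarith))
  unfold Lam
  rw [h1, h2, min_eq_left]
  have h3 : min V ((2 * a + 1) * Real.pi) ≤ (2 * a + 1) * Real.pi := min_le_right _ _
  nlinarith

theorem eI_odd (a : ℕ) : eI ((2 * a + 1) * Real.pi) = -1 := by
  have h := eI_add_int Real.pi a
  rw [eI_pi] at h
  rw [← h]
  congr 1
  push_cast; ring

/-- A point is in a rest or in an open turn. -/
theorem Vph_cases (a : ℕ) {z₀ : ℂ} (hz₀ : z₀ ≠ 0) :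
    eI (Vph a z₀) = -1 ∨ AngLift (Vph a) (2 * (a + 1 : ℕ) + 1) z₀ := by
  rcases rest_or_turn (pos_nonneg (a + 1) z₀) (pos_le (a + 1) z₀) with
    ⟨k, hk, h1, h2⟩ | ⟨k, hk, h1, h2⟩
  · left
    unfold Vph
    rw [prof_eq_rest hk h1 h2]
    have := eI_odd k
    rw [← this]
    congr 1
    ring
  · right
    have h := angLift_Sph (T := a + 1) hz₀ hk h1 h2
    filter_upwards [h] with y hy
    unfold Sph at hy
    unfold Vph
    linarith

/-! ### the gate -/

theorem Gam_of_V_le {a : ℕ} {q : ℝ} {z : ℂ} (h : Vph a z ≤ (2 * a + 1) * Real.pi) :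
    Gam a q z = ((‖z‖ : ℝ) : ℂ) * eI (Vph a z) := by
  unfold Gam
  rw [min_eq_left h]
  push_cast
  ring

theorem Gam_of_le_V {a : ℕ} {q : ℝ} {z : ℂ} (h : (2 * a + 1) * Real.pi ≤ Vph a z) :
    Gam a q z = ((‖z‖ - min q ‖z‖ : ℝ) : ℂ) * eI (Vph a z) - ((min q ‖z‖ : ℝ) : ℂ) := by
  unfold Gam
  rw [min_eq_right h, eI_odd]
  ring

theorem Gam_of_rest {a : ℕ} {q : ℝ} {z : ℂ} (h : eI (Vph a z) = -1) :
    Gam a q z = -((‖z‖ : ℝ) : ℂ) := by
  rcases le_total (Vph a z) ((2 * a + 1) * Real.pi) with h1 | h1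
  · rw [Gam_of_V_le h1, h, mul_neg_one]
  · rw [Gam_of_le_V h1, h]
    push_cast
    ring

theorem Gam_of_closed {a : ℕ} {q : ℝ} {z : ℂ} (h : ‖z‖ ≤ q) :
    Gam a q z = ((‖z‖ : ℝ) : ℂ) * eI (min (Vph a z) ((2 * a + 1) * Real.pi)) := by
  unfold Gam
  rw [min_eq_right h, sub_self, Complex.ofReal_zero, zero_mul, zero_add]

/-- Over the protected sector the link is the gate. -/
theorem lkw_protected {T a : ℕ} (hT : a + 1 ≤ T) {lam t : ℝ} {y z : ℂ}
    (h1 : 2 * a + 2 + 3 / 4 ≤ pos T y) (h2 : pos T y ≤ 2 * T + 1 / 4) :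
    lkw T a lam t y z = Gam a (lam * ‖y‖) z := by
  unfold lkw bw Gam
  rw [cy_eq_one h1 h2, mul_one, sub_add_cancel, one_mul,
    Lam_protected (le_Sph hT (by linarith)) (Vph_le a z)]

end Vale.Agent.P268.T.RV.C671
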