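import Vale.Agent.P268.T.H548.Tail

/-!
# P268, topological half: uniform regularity of tame families near `y = 0`

`XReg s B t X y`: the family `B` on `E × ℂ` is regular at `(X, y)` in the directions of `X`, with
`y` as a parameter.  For a tame family over a compact set this holds at all points with
`0 ≤ Re B` and `‖y‖ ≤ r * ‖X‖`, hence at all points with `lam * ‖y‖ ≤ Re B`, `lam` large.
-/

set_option linter.unusedSectionVars false

namespace Vale.Agent.P268.T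

open Set Filter Topology

variable {E : Type*} [NormedAddCommGroup E] [NormedSpace ℝ E]
  {Z : Type*} [NormedAddCommGroup Z] [NormedSpace ℝ Z]
  {Θ : Type*} [TopologicalSpace Θ]

/-- Regularity is an open condition. -/
theorem RegAt.eventually_within {s : Set Θ} {F : Θ → E → Z} {t₀ : Θ} {x₀ : E} (h : RegAt s F t₀ x₀) :
    ∀ᶠ q : Θ × E in 𝓝[s ×ˢ (univ : Set E)] (t₀, x₀), RegAt s F q.1 q.2 := by
  obtain ⟨k, h0, h1, A, U, hU, hev⟩ := h
  rw [nhdsWithin_prod_eq, nhdsWithin_univ]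
  have e1 : ∀ᶠ t in 𝓝[s] t₀, ∀ᶠ t' in 𝓝[s] t, MRegOn k (F t') A U :=
    eventually_eventually_nhdsWithin.mpr hev
  have e2 : ∀ᶠ x in 𝓝 x₀, U ∈ 𝓝 x := eventually_mem_nhds_iff.mpr hU
  filter_upwards [e1.prod_mk e2] with q hq
  exact ⟨k, h0, h1, A, U, hq.2, hq.1⟩

/-- Regularity of `B` at `(X, y)` in the directions of `X`, with `y` as a parameter. -/
def XReg (s : Set Θ) (B : Θ → E × ℂ → ℂ) (t : Θ) (X : E) (y : ℂ) : Prop :=
  RegAt (s ×ˢ (univ : Set ℂ)) (fun (p : Θ × ℂ) X => B p.1 (X, p.2)) (t, y) X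

theorem XReg.mono {s s' : Set Θ} (hs : s' ⊆ s) {B : Θ → E × ℂ → ℂ} {t : Θ} {X : E} {y : ℂ}
    (h : XReg s B t X y) : XReg s' B t X y :=
  RegAt.mono (prod_mono hs Subset.rfl) h

theorem XReg.regAt {s : Set Θ} {B : Θ → E × ℂ → ℂ} {t : Θ} {X : E} {y : ℂ}
    (h : XReg s B t X y) : RegAt s B t (X, y) := by
  refine RegAt.fst ?_
  exact h

theorem XReg.eventually {s : Set Θ} {B : Θ → E × ℂ → ℂ} {t : Θ} {X : E} {y : ℂ}
    (h : XReg s B t X y) :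
    ∀ᶠ q : (Θ × E) × ℂ in 𝓝[(s ×ˢ (univ : Set E)) ×ˢ (univ : Set ℂ)] ((t, X), y),
      XReg s B q.1.1 q.1.2 q.2 := by
  have h1 := RegAt.eventually_within h
  have h2 : Tendsto (fun q : (Θ × E) × ℂ => (((q.1.1, q.2) : Θ × ℂ), q.1.2))
      (𝓝[(s ×ˢ (univ : Set E)) ×ˢ (univ : Set ℂ)] ((t, X), y))
      (𝓝[(s ×ˢ (univ : Set ℂ)) ×ˢ (univ : Set E)] ((t, y), X)) := by
    refine ContinuousWithinAt.tendsto_nhdsWithin ?_ ?_
    · exact Continuous.continuousWithinAt (by fun_prop)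
    · rintro q ⟨⟨h1, -⟩, -⟩
      exact ⟨⟨h1, mem_univ _⟩, mem_univ _⟩
  exact h2.eventually h1

theorem XReg.smul {s : Set Θ} {B : Θ → E × ℂ → ℂ} (hom : ∀ t ∈ s, Hom1 (B t)) {t : Θ} {X : E}
    {y : ℂ} (h : XReg s B t X y) {r : ℝ} (hr : 0 < r) : XReg s B t (r • X) (r • y) := by
  obtain ⟨k, h0, h1, A, U, hU, hev⟩ := h
  have hr0 : r ≠ 0 := hr.ne'
  refine ⟨k, h0, h1, A, (fun x => r⁻¹ • x) ⁻¹' U, ?_, ?_⟩
  · refine (continuous_const_smul r⁻¹).continuousAt.preimage_mem_nhds ?_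
    rw [smul_smul, inv_mul_cancel₀ hr0, one_smul]
    exact hU
  · have h2 : Tendsto (fun p : Θ × ℂ => ((p.1, r⁻¹ • p.2) : Θ × ℂ))
        (𝓝[s ×ˢ (univ : Set ℂ)] (t, r • y)) (𝓝[s ×ˢ (univ : Set ℂ)] (t, y)) := by
      have h3 : ContinuousWithinAt (fun p : Θ × ℂ => ((p.1, r⁻¹ • p.2) : Θ × ℂ))
          (s ×ˢ (univ : Set ℂ)) (t, r • y) :=
        Continuous.continuousWithinAt (by fun_prop)
      have h4 := h3.tendsto_nhdsWithin (t := s ×ˢ (univ : Set ℂ)) fun p hp => ⟨hp.1, mem_univ _⟩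
      have e : r⁻¹ • r • y = y := by rw [smul_smul, inv_mul_cancel₀ hr0, one_smul]
      simpa only [e] using h4
    filter_upwards [h2.eventually hev, self_mem_nhdsWithin] with p hp hps x hx c hc
    have e1 : r⁻¹ • (x + A c) = r⁻¹ • x + A (r⁻¹ • c) := by rw [smul_add, map_smul]
    rw [mem_preimage, e1] at hc
    have h3 := hp (r⁻¹ • x) hx (r⁻¹ • c) hc
    have e2 : ∀ w : E, B p.1 (w, p.2) = r • B p.1 (r⁻¹ • w, r⁻¹ • p.2) := fun w => by
      rw [← hom p.1 hps.1 r hr.le, Prod.smul_mk, smul_smul, smul_smul, mul_inv_cancel₀ hr0,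
        one_smul, one_smul]
    have e3 : B p.1 (x + A c, p.2) - B p.1 (x, p.2) - c =
        r • (B p.1 (r⁻¹ • x + A (r⁻¹ • c), r⁻¹ • p.2) - B p.1 (r⁻¹ • x, r⁻¹ • p.2) -
          r⁻¹ • c) := by
      rw [e2 (x + A c), e2 x, e1, smul_sub, smul_sub, smul_smul, mul_inv_cancel₀ hr0, one_smul]
    show ‖B p.1 (x + A c, p.2) - B p.1 (x, p.2) - c‖ ≤ k * ‖c‖
    rw [e3, norm_smul, Real.norm_eq_abs, abs_of_pos hr]
    calc r * ‖B p.1 (r⁻¹ • x + A (r⁻¹ • c), r⁻¹ • p.2) - B p.1 (r⁻¹ • x, r⁻¹ • p.2) - r⁻¹ • c‖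
        ≤ r * (k * ‖r⁻¹ • c‖) := mul_le_mul_of_nonneg_left h3 hr.le
      _ = k * ‖c‖ := by
          rw [norm_smul, norm_inv, Real.norm_eq_abs, abs_of_pos hr]
          field_simp

/-- The local statement behind the compactness argument. -/
theorem Tame.xreg_local {s : Set Θ} {L : ℝ} {B : Θ → E × ℂ → ℂ} (hB : Tame s L B) {t : Θ}
    (ht : t ∈ s) {X : E} (hX : X ≠ 0) :
    ∀ᶠ q : (Θ × E) × ℂ in 𝓝[(s ×ˢ (univ : Set E)) ×ˢ (univ : Set ℂ)] ((t, X), (0 : ℂ)),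
      0 ≤ (B q.1.1 (q.1.2, q.2)).re → XReg s B q.1.1 q.1.2 q.2 := by
  rcases le_or_gt 0 (B t (X, 0)).re with h0 | h0
  · have h1 : XReg s B t X 0 := hB.zreg t ht X hX h0
    filter_upwards [h1.eventually] with q hq _
    exact hq
  · have h1 : Tendsto (fun q : (Θ × E) × ℂ => (B q.1.1 (q.1.2, q.2)).re)
        (𝓝[(s ×ˢ (univ : Set E)) ×ˢ (univ : Set ℂ)] ((t, X), (0 : ℂ))) (𝓝 (B t (X, 0)).re) := by
      have h2 := hB.fam.cont (t, ((X, 0) : E × ℂ)) ⟨ht, mem_univ _⟩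
      have h3 : Tendsto (fun q : (Θ × E) × ℂ => ((q.1.1, (q.1.2, q.2)) : Θ × (E × ℂ)))
          (𝓝[(s ×ˢ (univ : Set E)) ×ˢ (univ : Set ℂ)] ((t, X), (0 : ℂ)))
          (𝓝[s ×ˢ (univ : Set (E × ℂ))] (t, ((X, 0) : E × ℂ))) := by
        refine ContinuousWithinAt.tendsto_nhdsWithin
          (f := fun q : (Θ × E) × ℂ => ((q.1.1, (q.1.2, q.2)) : Θ × (E × ℂ))) ?_ ?_
        · exact Continuous.continuousWithinAt (by fun_prop)
        · rintro q ⟨⟨h1, -⟩, -⟩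
          exact ⟨h1, mem_univ _⟩
      exact (Complex.continuous_re.tendsto _).comp (h2.tendsto.comp h3)
    filter_upwards [h1.eventually (gt_mem_nhds h0)] with q hq h2
    exact absurd h2 (not_le.mpr hq)

/-- **Uniform regularity near `y = 0`.** -/
theorem Tame.exists_xreg [FiniteDimensional ℝ E] {s : Set Θ} (hs : IsCompact s) {L : ℝ}
    {B : Θ → E × ℂ → ℂ} (hB : Tame s L B) :
    ∃ r > 0, ∀ t ∈ s, ∀ (X : E) (y : ℂ), X ≠ 0 → ‖y‖ ≤ r * ‖X‖ → 0 ≤ (B t (X, y)).re →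
      XReg s B t X y := by
  have : ProperSpace E := FiniteDimensional.proper ℝ E
  have hK : IsCompact (s ×ˢ Metric.sphere (0 : E) 1) := hs.prod (isCompact_sphere 0 1)
  have key : ∃ r > 0, ∀ q ∈ s ×ˢ Metric.sphere (0 : E) 1, ∀ y : ℂ, ‖y‖ ≤ r →
      0 ≤ (B q.1 (q.2, y)).re → XReg s B q.1 q.2 y := by
    refine hK.induction_on (p := fun S => ∃ r > 0, ∀ q ∈ S, ∀ y : ℂ, ‖y‖ ≤ r →
      0 ≤ (B q.1 (q.2, y)).re → XReg s B q.1 q.2 y) ?_ ?_ ?_ ?_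
    · exact ⟨1, one_pos, fun q hq => absurd hq (notMem_empty q)⟩
    · rintro S S' hSS ⟨r, hr, h⟩
      exact ⟨r, hr, fun q hq => h q (hSS hq)⟩
    · rintro S S' ⟨r, hr, h⟩ ⟨r', hr', h'⟩
      refine ⟨min r r', lt_min hr hr', fun q hq y hy => ?_⟩
      rcases hq with hq | hq
      · exact h q hq y (hy.trans (min_le_left _ _))
      · exact h' q hq y (hy.trans (min_le_right _ _))
    · rintro ⟨t, X⟩ ⟨ht, hX⟩
      have hX0 : X ≠ 0 := by
        rintro rfl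
        simp at hX
      have h1 := hB.xreg_local ht hX0
      rw [nhdsWithin_prod_eq, nhdsWithin_univ, eventually_prod_iff] at h1
      obtain ⟨pa, ha, pb, hb, hab⟩ := h1
      obtain ⟨r, hr, hrb⟩ := Metric.eventually_nhds_iff.mp hb
      refine ⟨{q | pa q}, ?_, r / 2, by positivity, fun q hq y hy h0 => ?_⟩
      · exact nhdsWithin_mono _ (prod_mono Subset.rfl (subset_univ _)) ha
      · refine hab hq (hrb ?_) h0
        rw [dist_zero_right]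
        linarith
  obtain ⟨r, hr, h⟩ := key
  refine ⟨r, hr, fun t ht X y hX hy h0 => ?_⟩
  have hn : 0 < ‖X‖ := norm_pos_iff.mpr hX
  have h1 : XReg s B t (‖X‖⁻¹ • X) (‖X‖⁻¹ • y) := by
    refine h (t, ‖X‖⁻¹ • X) ⟨ht, ?_⟩ (‖X‖⁻¹ • y) ?_ ?_
    · rw [mem_sphere_zero_iff_norm, norm_smul, norm_inv, norm_norm, inv_mul_cancel₀ hn.ne']
    · rw [norm_smul, norm_inv, norm_norm, inv_mul_le_iff₀ hn]
      linarith
    · show 0 ≤ (B t (‖X‖⁻¹ • X, ‖X‖⁻¹ • y)).re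
      rw [← Prod.smul_mk, hB.fam.hom t ht _ (inv_nonneg.mpr hn.le), Complex.smul_re, smul_eq_mul]
      exact mul_nonneg (inv_nonneg.mpr hn.le) h0
  have h2 := h1.smul hB.fam.hom hn
  rwa [smul_smul, smul_smul, mul_inv_cancel₀ hn.ne', one_smul, one_smul] at h2

/-- A bound for a homogeneous family on `y = 0`. -/
theorem Tame.exists_bound [FiniteDimensional ℝ E] {s : Set Θ} (hs : IsCompact s) {L : ℝ}
    {B : Θ → E × ℂ → ℂ} (hB : Tame s L B) :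
    ∃ C > 0, ∀ t ∈ s, ∀ (X : E) (y : ℂ), ‖B t (X, y)‖ ≤ C * ‖X‖ + L * ‖y‖ := by
  have : ProperSpace E := FiniteDimensional.proper ℝ E
  have hK : IsCompact (s ×ˢ Metric.sphere (0 : E) 1) := hs.prod (isCompact_sphere 0 1)
  have hc : ContinuousOn (fun q : Θ × E => B q.1 (q.2, 0)) (s ×ˢ Metric.sphere (0 : E) 1) := by
    have h1 : Continuous (fun q : Θ × E => ((q.1, (q.2, 0)) : Θ × (E × ℂ))) := by fun_prop
    exact hB.fam.cont.comp h1.continuousOn fun q hq => ⟨hq.1, mem_univ _⟩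
  obtain ⟨C, hC⟩ := hK.exists_bound_of_continuousOn hc
  refine ⟨max C 1, lt_of_lt_of_le one_pos (le_max_right _ _), fun t ht X y => ?_⟩
  have h1 : ‖B t (X, 0)‖ ≤ max C 1 * ‖X‖ := by
    rcases eq_or_ne X 0 with rfl | hX
    · have h2 : B t ((0 : E), (0 : ℂ)) = 0 := (hB.fam.hom t ht).zero
      rw [h2]; simp
    · have hn : 0 < ‖X‖ := norm_pos_iff.mpr hX
      have h2 := hC (t, ‖X‖⁻¹ • X) ⟨ht, by
        rw [mem_sphere_zero_iff_norm, norm_smul, norm_inv, norm_norm, inv_mul_cancel₀ hn.ne']⟩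
      have e : B t (X, 0) = ‖X‖ • B t (‖X‖⁻¹ • X, 0) := by
        rw [← hB.fam.hom t ht _ hn.le, Prod.smul_mk, smul_smul, mul_inv_cancel₀ hn.ne', one_smul,
          smul_zero]
      rw [e, norm_smul, norm_norm, mul_comm]
      exact mul_le_mul_of_nonneg_right (h2.trans (le_max_left _ _)) hn.le
  have h2 := hB.lip t ht X y 0
  rw [sub_zero] at h2
  calc ‖B t (X, y)‖ = ‖B t (X, 0) + (B t (X, y) - B t (X, 0))‖ := by rw [add_sub_cancel]
    _ ≤ ‖B t (X, 0)‖ + ‖B t (X, y) - B t (X, 0)‖ := norm_add_le _ _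
    _ ≤ _ := add_le_add h1 h2

/-- **Uniform regularity**, second form: at the points with `lam * ‖y‖ ≤ Re B` the family is
regular in the directions of `X`. -/
theorem Tame.exists_xreg_lam [FiniteDimensional ℝ E] {s : Set Θ} (hs : IsCompact s) {L : ℝ}
    {B : Θ → E × ℂ → ℂ} (hB : Tame s L B) :
    ∃ lam > 0, ∀ lam' : ℝ, lam ≤ lam' → ∀ t ∈ s, ∀ (X : E) (y : ℂ), (X, y) ≠ 0 →
      lam' * ‖y‖ ≤ (B t (X, y)).re → X ≠ 0 ∧ XReg s B t X y := by
  obtain ⟨r, hr, h⟩ := hB.exists_xreg hs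
  obtain ⟨C, hC0, hC⟩ := hB.exists_bound hs
  have hL0 : 0 ≤ |L| := abs_nonneg L
  refine ⟨|L| + C / r + 1, by positivity, fun lam' hlam t ht X y hXy hre => ?_⟩
  have h1 : (B t (X, y)).re ≤ C * ‖X‖ + L * ‖y‖ := (Complex.re_le_norm _).trans (hC t ht X y)
  have hy0 : 0 ≤ ‖y‖ := norm_nonneg y
  have h2 : (C / r + 1) * ‖y‖ ≤ C * ‖X‖ := by
    have e1 : (|L| + C / r + 1) * ‖y‖ ≤ lam' * ‖y‖ := mul_le_mul_of_nonneg_right hlam hy0
    have e2 : L * ‖y‖ ≤ |L| * ‖y‖ := mul_le_mul_of_nonneg_right (le_abs_self L) hy0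
    nlinarith
  have hX : X ≠ 0 := by
    rintro rfl
    rw [norm_zero, mul_zero] at h2
    have h3 : ‖y‖ = 0 := by
      have : 0 < C / r + 1 := by positivity
      nlinarith
    exact hXy (Prod.ext rfl (norm_eq_zero.mp h3))
  refine ⟨hX, h t ht X y hX ?_ ?_⟩
  · have h3 : C / r * ‖y‖ ≤ C * ‖X‖ := by nlinarith
    rw [div_mul_eq_mul_div, div_le_iff₀ hr] at h3
    have h4 : C * ‖y‖ ≤ C * (r * ‖X‖) := by nlinarith
    exact le_of_mul_le_mul_left h4 hC0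
  · have h3 : 0 ≤ lam' := by
      have : 0 ≤ C / r := by positivity
      linarith
    exact (mul_nonneg h3 hy0).trans hre

end Vale.Agent.P268.T
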